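import Vale.Agent.P269CW.Stab
import Vale.Agent.P269C.Spec2

/-! Row V11: the statements of the sub-rows. -/

noncomputable section

namespace Vale.Agent.P269CW

open Set Filter MeasureTheory Vale.Agent.P273.H183 Vale.Agent.P272.K
open Vale.Agent.P269C (Iso Co Bas Df tau dd)
open scoped Topology ContDiff

theorem ne2 : ({0}ᶜ : Set (Cm 2)).Nonempty :=
  ⟨fun _ => 1, fun h => one_ne_zero (congrFun (show (fun _ => (1 : ℂ)) = (0 : Cm 2) from h) 0)⟩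

/-- The Weierstrass family over the punctured plane. -/
def W2 : Fam (Fin 1) 2 := W (Fin 1) {0}ᶜ id ne2

/-- Smooth curves of genus one with a marked point are Weierstrass cubics. -/
def CLS : Prop := ∀ (m : ℕ) (C : Fam (Fin 1) m), C.IsStable → ∀ b ∈ C.B,
  (∀ p ∈ C.fib b, ∃ z, Co C z p) → (∃ e : Fin 1 → Df C, Bas C b e) →
  ∃ a : Cm 2, a ≠ 0 ∧ 4 * a 0 ^ 3 + 27 * a 1 ^ 2 ≠ 0 ∧ (Iso C b W2 a).Nonempty

/-- Isomorphisms of smooth Weierstrass cubics are scalings. -/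
def AUT : Prop := ∀ (m m' : ℕ) (B : Set (Cm m)) (B' : Set (Cm m')) (a : Cm m → Cm 2)
  (a' : Cm m' → Cm 2) (hne : B.Nonempty) (hne' : B'.Nonempty), IsOpen B → IsOpen B' →
  (∀ b ∈ B, AnalyticAt ℂ a b ∧ a b ≠ 0) → (∀ b ∈ B', AnalyticAt ℂ a' b ∧ a' b ≠ 0) →
  ∀ b ∈ B, ∀ b' ∈ B', 4 * a b 0 ^ 3 + 27 * a b 1 ^ 2 ≠ 0 →
  ∀ Φ ∈ Iso (W (Fin 1) B a hne) b (W (Fin 1) B' a' hne') b', ∃ s : ℂ, s ≠ 0 ∧
    a' b' 0 = s ^ 4 * a b 0 ∧ a' b' 1 = s ^ 6 * a b 1 ∧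
    ∀ p : (W (Fin 1) B a hne).fib b, p.1 ∈ (aff : Set (tot B a)) →
      Φ p ∈ (aff : Set (tot B' a')) ∧ xC (B := B') (a := a') (Φ p) = s ^ 2 * xC (B := B) (a := a) p.1 ∧
        yC (B := B') (a := a') (Φ p) = s ^ 3 * yC (B := B) (a := a) p.1

/-- A scaling invariant cut off function. -/
def ph (R : ℝ) (x y : ℂ) : ℝ :=
  Real.smoothTransition ((2 * (R * ‖y‖ ^ 4) - ‖x‖ ^ 6) / (‖x‖ ^ 6 + R * ‖y‖ ^ 4))

/-- The weight on the slice `a₁ = 1`. -/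
def w1 (R : ℝ) (t : Cm 1) : ℝ := ph R (t 0) 1 / 6

/-- The weight on the slice `a₀ = 1`. -/
def w2 (R : ℝ) (t : Cm 1) : ℝ := (1 - ph R 1 (t 0)) / 4

/-- The analytic part: the degree of the Hodge bundle of the weighted projective line. -/
def ANA : Prop := ∀ H₁ H₂ : Cm 1 → ℝ, (∀ t, 0 < H₁ t ∧ ContDiffAt ℝ ∞ H₁ t) →
  (∀ t, 0 < H₂ t ∧ ContDiffAt ℝ ∞ H₂ t) →
  (∀ (s : ℂ) (t t' : Cm 1), s ^ 4 * t 0 = 1 → t' 0 = s ^ 6 → H₁ t = ‖s‖ ^ 2 * H₂ t') →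
  Tendsto (fun R : ℝ => (∫ t, (w1 R t : ℂ) * tau (-dd (fun x => Real.log (H₁ x)) t)) +
    ∫ t, (w2 R t : ℂ) * tau (-dd (fun x => Real.log (H₂ x)) t)) atTop (𝓝 (1 / 24))

end Vale.Agent.P269CW

end
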