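import Vale.Agent.P269CW.Fld4
import Vale.Agent.P273.H948.Conv
import Vale.Agent.P273.H948.Smooth

/-! The Weierstrass family is a family of stable curves. -/

noncomputable section

namespace Vale.Agent.P269CW

open Set Filter Vale.Agent.P273.H183
open scoped Topology
open Vale.Agent.P273.H948 (Surf IsModel)

variable {m : ℕ} {B : Set (Fin m → ℂ)} {a : (Fin m → ℂ) → Fin 2 → ℂ}

/-- The surface of the family. -/
def WS (B : Set (Fin m → ℂ)) (a : (Fin m → ℂ) → Fin 2 → ℂ) (hB : IsOpen B)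
    (ha : ∀ b ∈ B, AnalyticAt ℂ a b) (hK : ∀ b ∈ B, a b ≠ 0) : Surf m where
  X := tot B a
  top := inferInstance
  t2 := inferInstance
  π := pr
  hol P f := hlo f P
  model P := by
    obtain ⟨U, x, y, t, h1, h2⟩ := W_chart hB ha hK P
    exact ⟨U, x, y, t, h1, IsChart.isModel (hol := fun P f => hlo f P) h2⟩

theorem oo_far (hne : B.Nonempty) {b : Fin m → ℂ} (hb : b ∈ B) :
    (oo hne b : tot B a) ∈ (far : Set (tot B a)) := by rw [oo_eq hne hb]; exact ptF_mem _

theorem cF_oo (hne : B.Nonempty) {b : Fin m → ℂ} (hb : b ∈ B) :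
    cF (oo hne b : tot B a) = (b, 0, 0) := by rw [oo_eq hne hb, cF_ptF]

theorem pr_oo (hne : B.Nonempty) {b : Fin m → ℂ} (hb : b ∈ B) :
    pr (oo hne b : tot B a) = b := congrArg Prod.fst (cF_oo hne hb)

theorem wC_oo (hne : B.Nonempty) {b : Fin m → ℂ} (hb : b ∈ B) :
    wC (oo hne b : tot B a) = 0 := by rw [wC, cF_oo hne hb]

theorem uC_oo (hne : B.Nonempty) {b : Fin m → ℂ} (hb : b ∈ B) :
    uC (oo hne b : tot B a) = 0 := by rw [uC, cF_oo hne hb]

theorem oo_not_aff (hne : B.Nonempty) {b : Fin m → ℂ} (hb : b ∈ B) :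
    (oo hne b : tot B a) ∉ (aff : Set (tot B a)) := fun h =>
  (aff_iff (oo_far hne hb)).1 h (wC_oo hne hb)

theorem eq_oo (hne : B.Nonempty) {P : tot B a} (hP : P ∉ (aff : Set (tot B a))) :
    P = oo hne (pr P) := by
  have hF := (mem_aff_or_far P).resolve_left hP
  have hb := pr_mem P
  apply Subtype.ext
  rw [← emb'_cF hF, ← emb'_cF (oo_far hne hb), cF_oo hne hb, cF_eq, wC_eq_zero hP, uC_eq_zero hP]

/-- **The Weierstrass family is stable.** -/
theorem W_isStable (L : Type) [Unique L] (hne : B.Nonempty) (hB : IsOpen B)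
    (ha : ∀ b ∈ B, AnalyticAt ℂ a b) (hK : ∀ b ∈ B, a b ≠ 0) : (W L B a hne).IsStable := by
  refine ⟨hB, (inferInstance : T2Space (tot B a)), fun p => pr_mem p, fun K hK' hc =>
    isCompact_pr (fun b hb => (ha b hb).continuousAt.continuousWithinAt) hK' hc, fun p =>
    W_chart hB ha hK p, fun b hb => ⟨isConnected_pr hb, fun i => ⟨pr_oo hne hb,
      (oo_at hB hb).1, (oo_at hB hb).2, fun j _ => Subsingleton.elim i j, ?_⟩, ?_⟩⟩
  · intro U x y t h hU
    obtain ⟨U₁, x₁, y₁, h1, -, h2⟩ := far_chart hB ha (oo_far hne hb) (by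
      rw [wC_oo hne hb, sw1_zero]; exact one_ne_zero)
    have h3 := IsChart.isModel (hol := fun P f => hlo f P) h2
    have h4 : x₁ (oo hne b) ≠ 0 := by
      intro e
      have := h3.eqn _ h1
      rw [e, zero_mul] at this
      exact zero_ne_one this
    exact (WS B a hB ha hK).smooth_model h1 h3 h4 hU
      (IsChart.isModel (hol := fun P f => hlo f P) h)
  · exact fun D hD p hp f hf => W_field hK b hb D hD p hp f hf

end Vale.Agent.P269CW

end
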