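import Vale.Agent.P269CW.Omega

/-! The invariant differential is a frame of the Hodge bundle of the Weierstrass family. -/

set_option linter.unusedSectionVars false
set_option linter.unusedVariables false

noncomputable section

namespace Vale.Agent.P269CW

open Set Filter Vale.Agent.P273.H183 Vale.Agent.P273.H948 Vale.Agent.P269CK
open Vale.Agent.P269C (nf FH Co Dr Df Om Bas Fr)
open Vale.Agent.P273SD (Mod Pc Pc_self ev_br)
open scoped Topology Classical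

variable {L : Type} {m : ℕ} {a : (Fin m → ℂ) → Fin 2 → ℂ}

section

variable {X : Type} [TopologicalSpace X] {π : X → Fin m → ℂ} {hol : (X → ℂ) → X → Prop} {O : Set X}
  {α β : X → ℂ} {Z : Set ((Fin m → ℂ) × ℂ × ℂ)} {p₀ : X}

/-- A chart with a node at a double root. -/
theorem amb_node (h : IsAmb π hol O α β Z) (hp₀ : p₀ ∈ O)
    (ha : AnalyticAt ℂ a (π p₀)) (h0 : β p₀ = 0) (h1 : sx1 (a (π p₀)) (α p₀) = 0)
    (h2 : hx (α p₀) (α p₀) ≠ 0)
    (hZ : ∀ᶠ z in 𝓝 ((π p₀, α p₀, β p₀) : (Fin m → ℂ) × ℂ × ℂ),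
      z ∈ Z ↔ z.2.2 ^ 2 = sx (a z.1) z.2.1) :
    ∃ U x y t, p₀ ∈ U ∧ IsChart π hol U x y t ∧ x p₀ = 0 ∧ y p₀ = 0 := by
  have k1 : AnalyticAt ℂ (fun z : (Fin m → ℂ) × ℂ => sx1 (a z.1) z.2) (π p₀, α p₀) :=
    analyticAt_sx1 (β := fun z : (Fin m → ℂ) × ℂ => z.1) (x := fun z => z.2) ha analyticAt_fst rfl
      analyticAt_snd
  have k2 : HasDerivAt (fun x : ℂ => sx1 (a (π p₀)) x) (2 * hx (α p₀) (α p₀)) (α p₀) :=
    hasDerivAt_sx1 _ _
  obtain ⟨c, hc, hc0, hce⟩ := exists_implicit (G := fun z : (Fin m → ℂ) × ℂ => sx1 (a z.1) z.2)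
    k1 h1 (mul_ne_zero two_ne_zero h2) k2
  have hc' : AnalyticAt ℂ (fun z : (Fin m → ℂ) × ℂ × ℂ => c z.1) (π p₀, α p₀, β p₀) :=
    AnalyticAt.comp (g := c) (f := Prod.fst) hc analyticAt_fst
  have hH := analyticAt_hx (z₀ := (π p₀, α p₀, β p₀)) hc' (analyticAt_mid _)
  obtain ⟨r, hr, hr0, hre⟩ := exists_sqrt hH (by simpa only [hc0] using h2)
  have hs : AnalyticAt ℂ (fun z : (Fin m → ℂ) × ℂ × ℂ => (z.2.1 - c z.1) * r z)
    (π p₀, α p₀, β p₀) := ((analyticAt_mid _).sub hc').mul hr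
  have hr1 : DifferentiableAt ℂ (fun x => r (π p₀, x, β p₀)) (α p₀) :=
    DifferentiableAt.comp (g := r) (α p₀) hr.differentiableAt (by fun_prop :
      DifferentiableAt ℂ (fun x : ℂ => ((π p₀, x, β p₀) : (Fin m → ℂ) × ℂ × ℂ)) (α p₀))
  have hr2 : DifferentiableAt ℂ (fun y => r (π p₀, α p₀, y)) (β p₀) :=
    DifferentiableAt.comp (g := r) (β p₀) hr.differentiableAt (by fun_prop :
      DifferentiableAt ℂ (fun y : ℂ => ((π p₀, α p₀, y) : (Fin m → ℂ) × ℂ × ℂ)) (β p₀))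
  have ht : AnalyticAt ℂ (fun b => sx (a b) (c b)) (π p₀) := analyticAt_sx ha analyticAt_id rfl hc
  have g1 : HasDerivAt (fun _ : ℂ => β p₀) 0 (α p₀) := hasDerivAt_const _ _
  have g2 : HasDerivAt (fun y : ℂ => y) 1 (β p₀) := hasDerivAt_id _
  have g3 : HasDerivAt (fun x : ℂ => (x - c (π p₀)) * r (π p₀, x, β p₀))
      (r (π p₀, α p₀, β p₀)) (α p₀) := by
    have := ((hasDerivAt_id (α p₀)).sub_const (c (π p₀))).mul hr1.hasDerivAt
    refine HasDerivAt.congr_deriv this ?_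
    simp [hc0]
  have g4 : HasDerivAt (fun y : ℂ => (α p₀ - c (π p₀)) * r (π p₀, α p₀, y)) 0 (β p₀) := by
    refine HasDerivAt.congr_deriv (hr2.hasDerivAt.const_mul (α p₀ - c (π p₀))) ?_
    simp [hc0]
  have hdet : (0 : ℂ) * 0 - 1 * r (π p₀, α p₀, β p₀) ≠ 0 := by simpa using hr0
  have hZ' : ∀ᶠ z in 𝓝 ((π p₀, α p₀, β p₀) : (Fin m → ℂ) × ℂ × ℂ),
      z ∈ Z ↔ z.2.2 ^ 2 - ((z.2.1 - c z.1) * r z) ^ 2 = sx (a z.1) (c z.1) := by
    filter_upwards [hZ, hre, continuousAt_fst.eventually hce] with z h1 h2 h3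
    rw [h1]
    have h4 := sx_eq (a z.1) (c z.1) z.2.1
    rw [h3, ← h2] at h4
    rw [h4]
    constructor
    · intro e; linear_combination e
    · intro e; linear_combination e
  obtain ⟨U, hU⟩ := IsAmb.node (s := fun z => z.2.2) (q := fun z => (z.2.1 - c z.1) * r z)
    (t := fun b => sx (a b) (c b)) h hp₀ (analyticAt_snd' _) hs ht g1 g2 g3 g4 hdet hZ'
  exact ⟨U, _, _, _, hU.1, hU.2.2, by simp [h0, hc0], by simp [h0, hc0]⟩

end

variable {B : Set (Fin m → ℂ)} {hne : B.Nonempty} {z : tot B a → ℂ} {p : tot B a}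

theorem Ok.reg (h : Ok B a) (hz : Co (W L B a hne) z p) (hp : p ∈ (aff : Set (tot B a)))
    (h0 : yC p = 0) : sx1 (a (pr p)) (xC p) ≠ 0 := by
  intro h1
  have hm := cA_mem hp
  have hb : pr p ∈ B := hm.1
  have h2 : yC p ^ 2 = sx (a (pr p)) (xC p) := hm.2
  obtain ⟨U, x, y, t, k1, k2, k3, k4⟩ := amb_node isAmb_aff hp (h.an _ hb) h0 h1
    (no_triple (h.ne _ hb) (by rw [← h2, h0]; ring) h1) (by
      filter_upwards [continuousAt_fst.eventually (h.op.mem_nhds hb)] with z hz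
      exact ⟨fun h => h.2, fun h => ⟨hz, h⟩⟩)
  have : Nonempty (W L B a hne).X := ⟨p⟩
  exact Co.not_node hz (IsChart.isModel (hol := fun P f => hlo f P) k2) k1 k3 k4

theorem Ok.tl (h : Ok B a) (p : tot B a) : Tl (W L B a hne) (om L B a hne) p := by
  intro z w c hz hw hd
  have hC := h.chd (L := L) (hne := hne)
  obtain ⟨κ, ξ, -, -, k3, -, k5⟩ := h.loc (L := L) (hne := hne) (h.reg hz)
  rw [k5.self_of_nhds z hz, k5.self_of_nhds w hw,
    Dr.dd_eq hC hz (Dr.trans (dr_dd hC (fh_of_hol k3) hw) hd)]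
  ring

theorem Ok.om_ne (h : Ok B a) (hz : Co (W L B a hne) z p) : om L B a hne z p ≠ 0 := by
  have hC := h.chd (L := L) (hne := hne)
  obtain ⟨κ, ξ, -, k2, k3, k4, k5⟩ := h.loc (L := L) (hne := hne) (h.reg hz)
  rw [k5.self_of_nhds z hz]
  exact mul_ne_zero k2 (Dr.ne hC k4 hz (dr_dd hC k4.1 hz))

theorem Ok.om_fh (h : Ok B a) (hz : Co (W L B a hne) z p) :
    FH (W L B a hne) (om L B a hne z) p := by
  have hC := h.chd (L := L) (hne := hne)
  obtain ⟨κ, ξ, k1, -, k3, k4, k5⟩ := h.loc (L := L) (hne := hne) (h.reg hz)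
  refine FH.congr (FH.mul hC (fh_of_hol k1) (fh_dd hC k4.1 hz)) ?_
  filter_upwards [nf_le (C := W L B a hne) p k5, Co.ev hC hz] with q e1 e2 using e1 z e2

theorem Ok.om_hol (h : Ok B a) (hz' : (W L B a hne).hol z p) (hz : Co (W L B a hne) z p) :
    (W L B a hne).hol (om L B a hne z) p := by
  have hC := h.chd (L := L) (hne := hne)
  obtain ⟨κ, ξ, k1, -, k3, k4, k5⟩ := h.loc (L := L) (hne := hne) (h.reg hz)
  refine hol_congr hC (hol_mul hC k1 (hol_dd' hC k3 hz' hz)) ?_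
  filter_upwards [k5, co_ev hC hz' hz] with q e1 e2 using e1 z e2

theorem exists_quot {f : ℂ → ℂ} (hf : AnalyticAt ℂ f 0) :
    ∃ g : ℂ → ℂ, AnalyticAt ℂ g 0 ∧ HasDerivAt f (g 0) 0 ∧ ∀ s, f s = f 0 + s * g s := by
  obtain ⟨P, hP⟩ := hf
  refine ⟨dslope f 0, ⟨_, hP.has_fpower_series_dslope_fslope⟩, ?_, fun s => ?_⟩
  · rw [dslope_same]; exact hP.analyticAt.differentiableAt.hasDerivAt
  · have := sub_smul_dslope f 0 s
    rw [sub_zero, smul_eq_mul] at this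
    rw [this]; ring

/-- The derivative of a holomorphic function along a curve. -/
theorem der_curve {f : tot B a → ℂ} (hp : p ∈ (aff : Set (tot B a))) (hf : hlo f p) :
    ∃ α β : ℂ, ∀ (γ : ℂ → tot B a) (x y : ℂ), Tendsto γ (𝓝 0) (𝓝 p) → γ 0 = p →
      (∀ᶠ s in 𝓝 0, pr (γ s) = pr p) → HasDerivAt (fun s => xC (γ s)) x 0 →
      HasDerivAt (fun s => yC (γ s)) y 0 → HasDerivAt (fun s => f (γ s)) (x * α + y * β) 0 := by
  obtain ⟨g, hg, he⟩ := (hlo_aff hp).1 hf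
  have h1 := hg.differentiableAt.hasFDerivAt
  refine ⟨fderiv ℂ g (cA p) (0, 1, 0), fderiv ℂ g (cA p) (0, 0, 1),
    fun γ x y k1 k2 k3 k4 k5 => ?_⟩
  have h2 : HasDerivAt (fun s => ((pr p, xC (γ s), yC (γ s)) : (Fin m → ℂ) × ℂ × ℂ)) (0, x, y) 0 :=
    (hasDerivAt_const _ _).prodMk (k4.prodMk k5)
  have h3 := HasFDerivAt.comp_hasDerivAt_of_eq (hl := h1) (hf := h2) (hy := by rw [k2]; rfl)
  rw [clm_eq _ (x, y)] at h3
  refine h3.congr_of_eventuallyEq ?_
  filter_upwards [k1.eventually he, k3] with s e1 e2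
  rw [e1, cA_eq, e2]
  rfl

/-- A branch at a node. -/
theorem Ok.br [Nonempty (W L B a hne).X] (h : Ok B a) {U : Set (tot B a)} {u v : tot B a → ℂ}
    {t : (Fin m → ℂ) → ℂ} (hm : Mod (W L B a hne) U u v t) (hU : p ∈ U) (hu : u p = 0)
    (hv : v p = 0) : ∃ (α β x y : ℂ) (F : ℂ → ℂ), x * α + y * β = 1 ∧ x ≠ 0 ∧ y ≠ 0 ∧
      y ^ 2 = x ^ 2 * hx (xC p) (xC p) ∧ AnalyticAt ℂ F 0 ∧ F 0 = x / (2 * y) ∧
      (∀ᶠ s in 𝓝 (0 : ℂ), s ≠ 0 →
        om L B a hne u (Pc (W L B a hne) U u v t (pr p) s) * s = F s) ∧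
      HasDerivAt (fun s => xC (Pc (W L B a hne) U u v t (pr p) s)) x 0 ∧
      HasDerivAt (fun s => yC (Pc (W L B a hne) U u v t (pr p) s)) y 0 ∧
      ∀ x' y', HasDerivAt (fun s => xC (Pc (W L B a hne) U v u t (pr p) s)) x' 0 →
        HasDerivAt (fun s => yC (Pc (W L B a hne) U v u t (pr p) s)) y' 0 →
        x' * α + y' * β = 0 := by
  have hC := h.chd (L := L) (hne := hne)
  have cA := h.cubA (L := L) (hne := hne)
  have nc : ∀ z, ¬ Co (W L B a hne) z p := fun z hz => Co.not_node hz hm hU hu hv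
  have hA : p ∈ (aff : Set (tot B a)) := by
    by_contra hA
    obtain ⟨κ, ξ, -, -, -, k4, -⟩ := h.loc (L := L) (hne := hne) (p := p) fun k => absurd k hA
    exact nc _ k4
  have h0 : yC p = 0 := by_contra fun k => nc _ (cA.co_x hA k)
  have h1 : sx1 (a (pr p)) (xC p) = 0 := by_contra fun k => nc _ (cA.co_y hA k)
  have h2 : sx (a (pr p)) (xC p) = 0 := by
    have := cA.eq p hA
    rw [h0] at this
    exact this.symm.trans (by ring)
  have h3 := no_triple (h.ne _ (pr_mem p)) h2 h1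
  obtain ⟨α, β, hαβ⟩ := der_curve hA (hm.hol_u hU)
  set γ := Pc (W L B a hne) U u v t (pr p) with hγ
  have g0 : γ 0 = p := hu ▸ Pc_self hm hU fun _ => hv
  have g1 : Tendsto γ (𝓝 0) (𝓝 p) := hu ▸ (tendsto_br hm hU fun _ => hv).mono_right (nf_le _)
  have g2 := ev_br hm hU fun _ => hv
  have aX := an_br hm hU (fun _ => hv) (fh_of_hol (cA.hx p hA))
  have aY := an_br hm hU (fun _ => hv) (fh_of_hol (cA.hy p hA))
  rw [hu] at g2 aX aY
  obtain ⟨X, X1, X2, X3⟩ := exists_quot aX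
  obtain ⟨Y, Y1, Y2, Y3⟩ := exists_quot aY
  change ∀ s, xC (γ s) = xC (γ 0) + s * X s at X3
  change ∀ s, yC (γ s) = yC (γ 0) + s * Y s at Y3
  rw [g0] at X3 Y3
  have e1 : X 0 * α + Y 0 * β = 1 := by
    refine (hαβ γ _ _ g1 g0 (g2.mono fun s hs => hs.2.1) X2 Y2).unique
      ((hasDerivAt_id (0 : ℂ)).congr_of_eventuallyEq (g2.mono fun s hs => hs.2.2.1))
  have e2 : Y 0 ^ 2 = X 0 ^ 2 * hx (xC p) (xC p) := by
    have c1 : ContinuousAt (fun s => Y s ^ 2) 0 := Y1.continuousAt.pow 2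
    have c2 : ContinuousAt (fun s => X s ^ 2 * hx (xC p) (xC p + s * X s)) 0 := by
      have := X1.continuousAt
      unfold hx
      fun_prop
    have c3 := tendsto_nhds_unique_of_eventuallyEq (l := 𝓝[≠] (0 : ℂ))
      (c1.tendsto.mono_left nhdsWithin_le_nhds) (c2.tendsto.mono_left nhdsWithin_le_nhds) (by
        filter_upwards [self_mem_nhdsWithin, nhdsWithin_le_nhds g2,
          nhdsWithin_le_nhds (g1.eventually (isOpen_aff.mem_nhds hA))] with s k1 k2 k3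
        have k4 : yC (γ s) ^ 2 = sx (a (pr (γ s))) (xC (γ s)) := (cA_mem k3).2
        rw [show pr (γ s) = pr p from k2.2.1, sx_eq _ (xC p), h1, h2, X3, Y3, h0] at k4
        refine mul_left_cancel₀ (pow_ne_zero 2 k1) ?_
        linear_combination k4)
    simpa using c3
  have x0 : X 0 ≠ 0 := by
    intro e
    rw [e] at e1 e2
    rw [pow_eq_zero_iff (n := 2) two_ne_zero |>.1 (e2.trans (by ring))] at e1
    simp at e1
  have y0 : Y 0 ≠ 0 := by
    intro e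
    rw [e] at e2
    exact mul_ne_zero (pow_ne_zero 2 x0) h3 (e2.symm.trans (by ring))
  refine ⟨α, β, X 0, Y 0, fun s => deriv (fun s => xC (γ s)) s / (2 * Y s), e1, x0, y0, e2,
    aX.deriv.div (analyticAt_const.mul Y1) (mul_ne_zero two_ne_zero y0), congrArg (· / (2 * Y 0)) X2.deriv, ?_,
    X2, Y2, fun x' y' k1 k2 => ?_⟩
  · filter_upwards [g2, g1.eventually (isOpen_aff.mem_nhds hA), Y1.continuousAt.eventually_ne y0]
      with s k1 k2 k3 k4
    have k5 : yC (γ s) = s * Y s := by rw [Y3, h0, zero_add]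
    have k6 : u (γ s) ≠ 0 := by rw [show u (γ s) = s from k1.2.2.1]; exact k4
    have k7 := Dr.dd_eq hC (co_chart hm k1.1 k6) (dr_chart hm k1.1 k6 (fh_of_hol (cA.hx _ k2)))
    rw [k1.2.1, k1.2.2.1] at k7
    rw [om_x k2 (by rw [k5]; exact mul_ne_zero k4 k3), k5]
    erw [k7]
    change _ * deriv (fun s => xC (γ s)) s * s = _
    field_simp
  · have g3 := ev_br hm.swap hU fun _ => hu
    have g4 := (tendsto_br hm.swap hU fun _ => hu).mono_right (nf_le _)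
    have g5 := Pc_self hm.swap hU fun _ => hu
    rw [hv] at g3 g4 g5
    have g6 : t (pr p) = 0 := by
      have := hm.eqn p hU
      rw [hu, zero_mul] at this
      exact this.symm
    refine (hαβ _ _ _ g4 g5 (g3.mono fun s hs => hs.2.1) k1 k2).unique
      ((hasDerivAt_const (0 : ℂ) (0 : ℂ)).congr_of_eventuallyEq (g3.mono fun s hs => ?_))
    exact hs.2.2.2.trans (by rw [show t ((W L B a hne).π p) = 0 from g6, zero_div])

theorem Ok.node (h : Ok B a) {U : Set (tot B a)} {u v : tot B a → ℂ}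
    {t : (Fin m → ℂ) → ℂ} (hm : Mod (W L B a hne) U u v t) (hU : p ∈ U) (hu : u p = 0)
    (hv : v p = 0) : ∃ f, FH (W L B a hne) f p ∧ f p ≠ 0 ∧
      Rs (W L B a hne) (om L B a hne) u v f p := by
  have : Nonempty (W L B a hne).X := ⟨p⟩
  obtain ⟨α, β, x, y, F, k1, k2, k3, k4, k5, k6, k7, -, -, k8⟩ := h.br hm hU hu hv
  obtain ⟨α', β', x', y', F', -, l2, l3, l4, l5, l6, l7, l8, l9, -⟩ := h.br hm.swap hU hv hu
  have e1 := k8 x' y' l8 l9
  have e2 : (y' * x - y * x') * (y' * x + y * x') = 0 := by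
    linear_combination x ^ 2 * l4 - x' ^ 2 * k4
  have e3 : y' * x + y * x' = 0 := (mul_eq_zero.1 e2).resolve_left fun e => l2 (by
    linear_combination x * e1 - x' * k1 - β * e)
  obtain ⟨f, f1, f2, f3⟩ := rs_node (η := om L B a hne) hm hU hu hv k5 l5 (by
    rw [k6, l6]
    field_simp
    linear_combination e3) k7 l7
  exact ⟨f, f1, by rw [f2, k6]; exact div_ne_zero k2 (mul_ne_zero two_ne_zero k3), f3⟩

theorem Ok.om_om (h : Ok B a) (b : Fin m → ℂ) : Om (W L B a hne) b (om L B a hne) :=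
  om_of h.chd (fun p _ => h.tl p) (fun p _ z hz => h.om_fh hz) fun p _ U x y t hm hU hx hy =>
    let ⟨f, f1, _, f3⟩ := h.node hm hU hx hy; ⟨f, f1, f3⟩

theorem Ok.co_oo (h : Ok B a) {b : Fin m → ℂ} (hb : b ∈ B) :
    (W L B a hne).hol uC (oo hne b) ∧ Co (W L B a hne) uC (oo hne b) :=
  ⟨(h.cubF (L := L)).hy _ (oo_far hne hb), (h.cubF (L := L)).co_y (oo_far hne hb) (by
    rw [wC_oo hne hb]; simp [sw1])⟩

theorem Ok.bas (h : Ok B a) {b : Fin m → ℂ} (hb : b ∈ B) :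
    Bas (W L B a hne) b fun _ : Fin 1 => om L B a hne :=
  bas_of_nv h.chd (isCompact_pr (fun b hb => (h.an b hb).continuousAt.continuousWithinAt)
    (singleton_subset_iff.2 hb) isCompact_singleton) (isConnected_pr hb).isPreconnected
    (h.om_om b) (fun p _ z hz => h.om_ne hz) (fun p _ U x y t hm hU hx hy => h.node hm hU hx hy)
    ⟨oo hne b, pr_oo hne hb, uC, (h.co_oo hb).2⟩

/-- **The invariant differential is a frame.** -/
theorem Ok.fr (h : Ok B a) {b : Fin m → ℂ} (hb : b ∈ B) :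
    Fr (W L B a hne) b fun _ : Fin 1 => om L B a hne := by
  filter_upwards [h.op.mem_nhds hb] with c hc
  exact ⟨h.bas hc, fun _ p _ z h1 h2 => h.om_hol h1 h2⟩

end Vale.Agent.P269CW

end
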