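import Vale.Agent.P269CW.Spec
import Vale.Agent.P269CW.Frm

/-! Row V11: two more sub-rows. -/

noncomputable section

namespace Vale.Agent.P269CW

open Set Filter MeasureTheory Vale.Agent.P273.H183 Vale.Agent.P272.K
open Vale.Agent.P269C (Is)
open scoped Topology

/-- Scalings are isomorphisms of Weierstrass cubics. -/
def SCL : Prop := ∀ (m m' : ℕ) (B : Set (Cm m)) (B' : Set (Cm m')) (a : Cm m → Cm 2)
  (a' : Cm m' → Cm 2) (hne : B.Nonempty) (hne' : B'.Nonempty), Ok B a → Ok B' a' →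
  ∀ b ∈ B, ∀ b' ∈ B', ∀ s : ℂ, s ≠ 0 → a' b' 0 = s ^ 4 * a b 0 → a' b' 1 = s ^ 6 * a b 1 →
  ∃ Φ : tot B a → tot B' a', Is (W (Fin 1) B a hne) b (W (Fin 1) B' a' hne') b' Φ ∧
    ∀ p : tot B a, pr p = b →
      (p ∈ (aff : Set (tot B a)) → Φ p ∈ (aff : Set (tot B' a')) ∧ xC (Φ p) = s ^ 2 * xC p ∧
        yC (Φ p) = s ^ 3 * yC p) ∧
      (p ∈ (far : Set (tot B a)) → Φ p ∈ (far : Set (tot B' a')) ∧ wC (Φ p) = wC p / s ^ 2 ∧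
        uC (Φ p) = uC p / s)

/-- The weights form a partition of unity on the weighted projective line. -/
def WGT : Prop := ∀ R : ℝ, 0 < R →
  (Continuous (w1 R) ∧ HasCompactSupport (w1 R)) ∧ (Continuous (w2 R) ∧ HasCompactSupport (w2 R)) ∧
  ∀ a : Cm 2, a ≠ 0 →
    (∑ᶠ t : Cm 1, ({s : ℂ | s ≠ 0 ∧ t 0 = s ^ 4 * a 0 ∧ 1 = s ^ 6 * a 1}.ncard : ℝ) * w1 R t) +
      ∑ᶠ t : Cm 1, ({s : ℂ | s ≠ 0 ∧ 1 = s ^ 4 * a 0 ∧ t 0 = s ^ 6 * a 1}.ncard : ℝ) * w2 R t = 1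

end Vale.Agent.P269CW

end
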