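import Vale.Agent.P269CW.Hol

/-! The Weierstrass family: charts and properness. -/

noncomputable section

namespace Vale.Agent.P269CW

open Set Filter
open scoped Topology ComplexConjugate
open Vale.Agent.P273.H183

variable {m : ℕ} {B : Set (Fin m → ℂ)} {a : (Fin m → ℂ) → Fin 2 → ℂ}

theorem continuous_sx : Continuous fun z : (Fin 2 → ℂ) × ℂ => sx z.1 z.2 := by
  unfold sx; fun_prop

theorem continuous_sw : Continuous fun z : (Fin 2 → ℂ) × ℂ => sw z.1 z.2 := by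
  unfold sw; fun_prop

theorem pr_mem (P : tot B a) : pr P ∈ B := by
  rcases mem_aff_or_far P with h | h
  · exact (cA_mem h).1
  · exact (cF_mem h).1

theorem isCompact_part {s : (Fin 2 → ℂ) × ℂ → ℂ} (hs : Continuous s) (ha : ContinuousOn a B)
    {K : Set (Fin m → ℂ)} (hK : K ⊆ B) (hKc : IsCompact K) :
    IsCompact {z : (Fin m → ℂ) × ℂ × ℂ | z.1 ∈ K ∧ ‖z.2.1‖ ≤ 1 ∧ z.2.2 ^ 2 = s (a z.1, z.2.1)} := by
  have hS : IsCompact (K ×ˢ Metric.closedBall (0 : ℂ) 1) := hKc.prod (isCompact_closedBall _ _)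
  have hc : ContinuousOn (fun z : (Fin m → ℂ) × ℂ => s (a z.1, z.2)) (K ×ˢ Metric.closedBall (0 : ℂ) 1) :=
    hs.comp_continuousOn (((ha.mono hK).comp continuousOn_fst fun z hz => hz.1).prodMk continuousOn_snd)
  obtain ⟨R, hR⟩ := hS.exists_bound_of_continuousOn hc
  have hT : IsCompact (K ×ˢ Metric.closedBall (0 : ℂ) 1 ×ˢ Metric.closedBall (0 : ℂ) (R + 1)) :=
    hKc.prod ((isCompact_closedBall _ _).prod (isCompact_closedBall _ _))
  have hc' : ContinuousOn (fun z : (Fin m → ℂ) × ℂ × ℂ => z.2.2 ^ 2 - s (a z.1, z.2.1))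
      (K ×ˢ Metric.closedBall (0 : ℂ) 1 ×ˢ Metric.closedBall (0 : ℂ) (R + 1)) := by
    refine ContinuousOn.sub (by fun_prop) ?_
    exact hc.comp (f := fun z : (Fin m → ℂ) × ℂ × ℂ => (z.1, z.2.1)) (by fun_prop)
      fun z hz => ⟨hz.1, hz.2.1⟩
  have h3 := hc'.preimage_isClosed_of_isClosed hT.isClosed isClosed_singleton (t := {0})
  have h4 : {z : (Fin m → ℂ) × ℂ × ℂ | z.1 ∈ K ∧ ‖z.2.1‖ ≤ 1 ∧ z.2.2 ^ 2 = s (a z.1, z.2.1)} =
      (K ×ˢ Metric.closedBall (0 : ℂ) 1 ×ˢ Metric.closedBall (0 : ℂ) (R + 1)) ∩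
        (fun z : (Fin m → ℂ) × ℂ × ℂ => z.2.2 ^ 2 - s (a z.1, z.2.1)) ⁻¹' {0} := by
    ext z
    constructor
    · rintro ⟨h1, h2, h5⟩
      have h6 := hR (z.1, z.2.1) ⟨h1, by simpa using h2⟩
      simp only at h6
      rw [← h5, norm_pow] at h6
      refine ⟨⟨h1, by simpa using h2, ?_⟩, ?_⟩
      · have h7 : ‖z.2.2‖ ≤ R + 1 := by nlinarith [sq_nonneg (‖z.2.2‖ - 1), norm_nonneg z.2.2]
        simpa using h7
      · simp [h5]
    · rintro ⟨⟨h1, h2, -⟩, h5⟩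
      refine ⟨h1, by simpa using h2, ?_⟩
      exact sub_eq_zero.1 h5
  rw [h4]
  exact hT.of_isClosed_subset h3 inter_subset_left

theorem isCompact_pr (ha : ContinuousOn a B) {K : Set (Fin m → ℂ)} (hK : K ⊆ B)
    (hKc : IsCompact K) : IsCompact (pr ⁻¹' K : Set (tot B a)) := by
  rw [Subtype.isCompact_iff]
  have h1 := (isCompact_part (s := fun z => sx z.1 z.2) continuous_sx ha hK hKc).image
    (f := emb) continuous_emb
  have h2 := (isCompact_part (s := fun z => sw z.1 z.2) continuous_sw ha hK hKc).image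
    (f := emb') continuous_emb'
  convert h1.union h2 using 1
  ext z
  constructor
  · rintro ⟨P, hP, rfl⟩
    have hP' : pr P ∈ K := hP
    by_cases hA : P ∈ (aff : Set (tot B a)) ∧ ‖xC P‖ ≤ 1
    · left
      exact ⟨cA P, ⟨hP', hA.2, (cA_mem hA.1).2⟩, emb_cA hA.1⟩
    · right
      have hF : P ∈ (far : Set (tot B a)) ∧ ‖wC P‖ ≤ 1 := by
        rcases mem_aff_or_far P with h | h
        · have h' : ¬ ‖xC P‖ ≤ 1 := fun e => hA ⟨h, e⟩
          have h0 : xC P ≠ 0 := by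
            intro e; apply h'; rw [e, norm_zero]; exact zero_le_one
          have hf := (far_iff h).2 h0
          refine ⟨hf, ?_⟩
          rw [wC_eq h hf, norm_inv]
          exact inv_le_one_of_one_le₀ (not_le.1 h').le
        · refine ⟨h, ?_⟩
          by_cases h2 : P ∈ (aff : Set (tot B a))
          · have h' : ¬ ‖xC P‖ ≤ 1 := fun e => hA ⟨h2, e⟩
            rw [wC_eq h2 h, norm_inv]
            exact inv_le_one_of_one_le₀ (not_le.1 h').le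
          · have : wC P = 0 := by
              by_contra e
              exact h2 ((aff_iff h).2 e)
            rw [this, norm_zero]; exact zero_le_one
      exact ⟨cF P, ⟨hP', hF.2, (cF_mem hF.1).2⟩, emb'_cF hF.1⟩
  · rintro (⟨z, ⟨h1, -, h2⟩, rfl⟩ | ⟨z, ⟨h1, -, h2⟩, rfl⟩)
    · exact ⟨⟨emb z, Or.inl ⟨z, ⟨hK h1, h2⟩, rfl⟩⟩, h1, rfl⟩
    · exact ⟨⟨emb' z, Or.inr ⟨z, ⟨hK h1, h2⟩, rfl⟩⟩, h1, rfl⟩

/-! ### Derivatives -/

theorem hasDerivAt_sx (a : Fin 2 → ℂ) (x : ℂ) : HasDerivAt (sx a) (sx1 a x) x := by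
  have h (n : ℕ) (c : ℂ) : HasDerivAt (fun x : ℂ => c * x ^ n) (c * (n * x ^ (n - 1))) x :=
    (hasDerivAt_pow n x).const_mul c
  have := ((h 3 1).add (h 1 (a 0))).add (hasDerivAt_const x (a 1))
  refine (this.congr_deriv ?_).congr_of_eventuallyEq (Eventually.of_forall fun x => ?_)
  · simp only [sx1]; norm_num
  · simp only [sx, Pi.add_apply]; ring

theorem hasDerivAt_sw (a : Fin 2 → ℂ) (x : ℂ) : HasDerivAt (sw a) (sw1 a x) x := by
  have h (n : ℕ) (c : ℂ) : HasDerivAt (fun x : ℂ => c * x ^ n) (c * (n * x ^ (n - 1))) x :=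
    (hasDerivAt_pow n x).const_mul c
  have := ((h 1 1).add (h 3 (a 0))).add (h 4 (a 1))
  refine (this.congr_deriv ?_).congr_of_eventuallyEq (Eventually.of_forall fun x => ?_)
  · simp only [sw1]; norm_num; ring
  · simp only [sw, Pi.add_apply]; ring

theorem hasDerivAt_sx1 (a : Fin 2 → ℂ) (x : ℂ) : HasDerivAt (sx1 a) (2 * hx x x) x := by
  have h (n : ℕ) (c : ℂ) : HasDerivAt (fun x : ℂ => c * x ^ n) (c * (n * x ^ (n - 1))) x :=
    (hasDerivAt_pow n x).const_mul c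
  have := (h 2 3).add (hasDerivAt_const x (a 0))
  refine (this.congr_deriv ?_).congr_of_eventuallyEq (Eventually.of_forall fun x => ?_)
  · simp only [hx]; norm_num; ring
  · simp only [sx1, Pi.add_apply]

section

variable {b₀ : Fin m → ℂ} (ha : AnalyticAt ℂ a b₀)
include ha

theorem analyticAt_coef (i : Fin 2) : AnalyticAt ℂ (fun b => a b i) b₀ :=
  (ContinuousLinearMap.proj (R := ℂ) (φ := fun _ : Fin 2 => ℂ) i).analyticAt _ |>.comp ha

theorem analyticAt_sx {A : Type*} [NormedAddCommGroup A] [NormedSpace ℂ A] {z₀ : A}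
    {β : A → Fin m → ℂ} {x : A → ℂ} (hβ : AnalyticAt ℂ β z₀) (h0 : β z₀ = b₀)
    (hx : AnalyticAt ℂ x z₀) : AnalyticAt ℂ (fun z => sx (a (β z)) (x z)) z₀ := by
  have h (i : Fin 2) : AnalyticAt ℂ (fun z => a (β z) i) z₀ :=
    AnalyticAt.comp (g := fun b => a b i) (by rw [h0]; exact analyticAt_coef ha i) hβ
  unfold sx
  exact ((hx.pow 3).add ((h 0).mul hx)).add (h 1)

theorem analyticAt_sw {A : Type*} [NormedAddCommGroup A] [NormedSpace ℂ A] {z₀ : A}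
    {β : A → Fin m → ℂ} {x : A → ℂ} (hβ : AnalyticAt ℂ β z₀) (h0 : β z₀ = b₀)
    (hx : AnalyticAt ℂ x z₀) : AnalyticAt ℂ (fun z => sw (a (β z)) (x z)) z₀ := by
  have h (i : Fin 2) : AnalyticAt ℂ (fun z => a (β z) i) z₀ :=
    AnalyticAt.comp (g := fun b => a b i) (by rw [h0]; exact analyticAt_coef ha i) hβ
  unfold sw
  exact (hx.add ((h 0).mul (hx.pow 3))).add ((h 1).mul (hx.pow 4))

theorem analyticAt_sx1 {A : Type*} [NormedAddCommGroup A] [NormedSpace ℂ A] {z₀ : A}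
    {β : A → Fin m → ℂ} {x : A → ℂ} (hβ : AnalyticAt ℂ β z₀) (h0 : β z₀ = b₀)
    (hx : AnalyticAt ℂ x z₀) : AnalyticAt ℂ (fun z => sx1 (a (β z)) (x z)) z₀ := by
  have h (i : Fin 2) : AnalyticAt ℂ (fun z => a (β z) i) z₀ :=
    AnalyticAt.comp (g := fun b => a b i) (by rw [h0]; exact analyticAt_coef ha i) hβ
  unfold sx1
  exact (analyticAt_const.mul (hx.pow 2)).add (h 0)

end

theorem analyticAt_hx {A : Type*} [NormedAddCommGroup A] [NormedSpace ℂ A] {z₀ : A}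
    {c x : A → ℂ} (hc : AnalyticAt ℂ c z₀) (hX : AnalyticAt ℂ x z₀) :
    AnalyticAt ℂ (fun z => hx (c z) (x z)) z₀ := by
  unfold hx
  exact hX.add (analyticAt_const.mul hc)

section

variable {X : Type} [TopologicalSpace X] {π : X → Fin m → ℂ} {hol : (X → ℂ) → X → Prop} {O : Set X}
  {α β : X → ℂ} {Z : Set ((Fin m → ℂ) × ℂ × ℂ)} {p₀ : X}

/-- A chart at a double root. -/
theorem amb_dbl (h : IsAmb π hol O α β Z) (hp₀ : p₀ ∈ O)
    (ha : AnalyticAt ℂ a (π p₀)) (h1 : sx1 (a (π p₀)) (α p₀) = 0)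
    (h2 : hx (α p₀) (α p₀) ≠ 0)
    (hZ : ∀ᶠ z in 𝓝 ((π p₀, α p₀, β p₀) : (Fin m → ℂ) × ℂ × ℂ),
      z ∈ Z ↔ z.2.2 ^ 2 = sx (a z.1) z.2.1) :
    ∃ U x y t, p₀ ∈ U ∧ U ⊆ O ∧ IsChart π hol U x y t := by
  have k1 : AnalyticAt ℂ (fun z : (Fin m → ℂ) × ℂ => sx1 (a z.1) z.2) (π p₀, α p₀) :=
    analyticAt_sx1 (β := fun z : (Fin m → ℂ) × ℂ => z.1) (x := fun z => z.2) ha analyticAt_fst rfl
      analyticAt_snd
  have k2 : HasDerivAt (fun x : ℂ => sx1 (a (π p₀)) x) (2 * hx (α p₀) (α p₀)) (α p₀) :=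
    hasDerivAt_sx1 _ _
  obtain ⟨c, hc, hc0, hce⟩ := exists_implicit (G := fun z : (Fin m → ℂ) × ℂ => sx1 (a z.1) z.2)
    k1 h1 (mul_ne_zero two_ne_zero h2) k2
  have hc' : AnalyticAt ℂ (fun z : (Fin m → ℂ) × ℂ × ℂ => c z.1) (π p₀, α p₀, β p₀) :=
    AnalyticAt.comp (g := c) (f := Prod.fst) hc analyticAt_fst
  have hH := analyticAt_hx (z₀ := (π p₀, α p₀, β p₀)) hc' (analyticAt_mid _)
  obtain ⟨r, hr, hr0, hre⟩ := exists_sqrt hH (by simpa only [hc0] using h2)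
  have hs : AnalyticAt ℂ (fun z : (Fin m → ℂ) × ℂ × ℂ => (z.2.1 - c z.1) * r z)
    (π p₀, α p₀, β p₀) := ((analyticAt_mid _).sub hc').mul hr
  have hr1 : DifferentiableAt ℂ (fun x => r (π p₀, x, β p₀)) (α p₀) :=
    DifferentiableAt.comp (g := r) (α p₀) hr.differentiableAt (by fun_prop :
      DifferentiableAt ℂ (fun x : ℂ => ((π p₀, x, β p₀) : (Fin m → ℂ) × ℂ × ℂ)) (α p₀))
  have hr2 : DifferentiableAt ℂ (fun y => r (π p₀, α p₀, y)) (β p₀) :=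
    DifferentiableAt.comp (g := r) (β p₀) hr.differentiableAt (by fun_prop :
      DifferentiableAt ℂ (fun y : ℂ => ((π p₀, α p₀, y) : (Fin m → ℂ) × ℂ × ℂ)) (β p₀))
  have ht : AnalyticAt ℂ (fun b => sx (a b) (c b)) (π p₀) := analyticAt_sx ha analyticAt_id rfl hc
  have g1 : HasDerivAt (fun _ : ℂ => β p₀) 0 (α p₀) := hasDerivAt_const _ _
  have g2 : HasDerivAt (fun y : ℂ => y) 1 (β p₀) := hasDerivAt_id _
  have g3 : HasDerivAt (fun x : ℂ => (x - c (π p₀)) * r (π p₀, x, β p₀))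
      (r (π p₀, α p₀, β p₀)) (α p₀) := by
    have := ((hasDerivAt_id (α p₀)).sub_const (c (π p₀))).mul hr1.hasDerivAt
    refine HasDerivAt.congr_deriv this ?_
    simp [hc0]
  have g4 : HasDerivAt (fun y : ℂ => (α p₀ - c (π p₀)) * r (π p₀, α p₀, y)) 0 (β p₀) := by
    refine HasDerivAt.congr_deriv (hr2.hasDerivAt.const_mul (α p₀ - c (π p₀))) ?_
    simp [hc0]
  have hdet : (0 : ℂ) * 0 - 1 * r (π p₀, α p₀, β p₀) ≠ 0 := by simpa using hr0
  have hZ' : ∀ᶠ z in 𝓝 ((π p₀, α p₀, β p₀) : (Fin m → ℂ) × ℂ × ℂ),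
      z ∈ Z ↔ z.2.2 ^ 2 - ((z.2.1 - c z.1) * r z) ^ 2 = sx (a z.1) (c z.1) := by
    filter_upwards [hZ, hre, continuousAt_fst.eventually hce] with z h1 h2 h3
    rw [h1]
    have h4 := sx_eq (a z.1) (c z.1) z.2.1
    rw [h3, ← h2] at h4
    rw [h4]
    constructor
    · intro e; linear_combination e
    · intro e; linear_combination e
  obtain ⟨U, hU⟩ := IsAmb.node (s := fun z => z.2.2) (q := fun z => (z.2.1 - c z.1) * r z)
    (t := fun b => sx (a b) (c b)) h hp₀ (analyticAt_snd' _) hs ht g1 g2 g3 g4 hdet hZ'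
  exact ⟨U, _, _, _, hU⟩

/-- Charts of `y ^ 2 = f(x)`. -/
theorem amb_cubic (h : IsAmb π hol O α β Z) (hp₀ : p₀ ∈ O)
    (ha : AnalyticAt ℂ a (π p₀)) (hK : a (π p₀) ≠ 0)
    (hZ : ∀ᶠ z in 𝓝 ((π p₀, α p₀, β p₀) : (Fin m → ℂ) × ℂ × ℂ),
      z ∈ Z ↔ z.2.2 ^ 2 = sx (a z.1) z.2.1) (h0 : β p₀ ^ 2 = sx (a (π p₀)) (α p₀)) :
    ∃ U x y t, p₀ ∈ U ∧ U ⊆ O ∧ IsChart π hol U x y t := by
  have hF : AnalyticAt ℂ (fun z : (Fin m → ℂ) × ℂ × ℂ => z.2.2 ^ 2 - sx (a z.1) z.2.1)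
      (π p₀, α p₀, β p₀) :=
    ((analyticAt_snd' _).pow 2).sub (analyticAt_sx ha analyticAt_fst rfl (analyticAt_mid _))
  have hZ' : ∀ᶠ z in 𝓝 ((π p₀, α p₀, β p₀) : (Fin m → ℂ) × ℂ × ℂ),
      z ∈ Z ↔ (fun z : (Fin m → ℂ) × ℂ × ℂ => z.2.2 ^ 2 - sx (a z.1) z.2.1) z = 0 := by
    filter_upwards [hZ] with z hz
    rw [hz, sub_eq_zero]
  by_cases hy : β p₀ = 0
  · have hs0 : sx (a (π p₀)) (α p₀) = 0 := by rw [← h0, hy]; ring
    by_cases h1 : sx1 (a (π p₀)) (α p₀) = 0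
    · exact amb_dbl h hp₀ ha h1 (no_triple hK hs0 h1) hZ
    · have g : HasDerivAt (fun x => β p₀ ^ 2 - sx (a (π p₀)) x) (-sx1 (a (π p₀)) (α p₀)) (α p₀) :=
        (hasDerivAt_sx _ _).const_sub _
      obtain ⟨U, x, y, h⟩ := h.smooth hp₀ hF hZ' (neg_ne_zero.2 h1) (Or.inr g)
      exact ⟨U, x, y, _, h⟩
  · have g : HasDerivAt (fun y => y ^ 2 - sx (a (π p₀)) (α p₀)) (2 * β p₀) (β p₀) := by
      refine HasDerivAt.congr_deriv ((hasDerivAt_pow 2 (β p₀)).sub_const _) ?_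
      simp
    obtain ⟨U, x, y, h⟩ := h.smooth hp₀ hF hZ' (mul_ne_zero two_ne_zero hy) (Or.inl g)
    exact ⟨U, x, y, _, h⟩

end

theorem wC_eq_zero {P : tot B a} (hP : P ∉ (aff : Set (tot B a))) : wC P = 0 := by
  by_contra e
  exact hP ((aff_iff ((mem_aff_or_far P).resolve_left hP)).2 e)

theorem uC_eq_zero {P : tot B a} (hP : P ∉ (aff : Set (tot B a))) : uC P = 0 := by
  have hm := cF_mem ((mem_aff_or_far P).resolve_left hP)
  have : uC P ^ 2 = sw (a (pr P)) (wC P) := hm.2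
  rw [wC_eq_zero hP] at this
  simpa [sw] using this

/-- A chart without nodes at a point near infinity where `sw` has a nonzero derivative. -/
theorem far_chart (hB : IsOpen B) (ha : ∀ b ∈ B, AnalyticAt ℂ a b) {P : tot B a}
    (hF : P ∈ (far : Set (tot B a))) (h1 : sw1 (a (pr P)) (wC P) ≠ 0) :
    ∃ U x y, P ∈ U ∧ U ⊆ far ∧ IsChart (pr : tot B a → _) hlo U x y (fun _ => 1) := by
  have hm := cF_mem hF
  have hb : pr P ∈ B := hm.1
  have g : HasDerivAt (fun w => uC P ^ 2 - sw (a (pr P)) w) (-sw1 (a (pr P)) (wC P)) (wC P) :=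
    (hasDerivAt_sw _ _).const_sub _
  have hA : AnalyticAt ℂ (fun z : (Fin m → ℂ) × ℂ × ℂ => z.2.2 ^ 2 - sw (a z.1) z.2.1)
      (pr P, wC P, uC P) := ((analyticAt_snd' _).pow 2).sub
      (analyticAt_sw (ha _ hb) analyticAt_fst rfl (analyticAt_mid _))
  have hZ : ∀ᶠ z in 𝓝 ((pr P, wC P, uC P) : (Fin m → ℂ) × ℂ × ℂ),
      z ∈ Zfar B a ↔ z.2.2 ^ 2 - sw (a z.1) z.2.1 = 0 := by
    filter_upwards [continuousAt_fst.eventually (hB.mem_nhds hb)] with z hz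
    rw [sub_eq_zero]
    exact ⟨fun h => h.2, fun h => ⟨hz, h⟩⟩
  exact IsAmb.smooth isAmb_far hF hA hZ (neg_ne_zero.2 h1) (Or.inr g)

/-- Every point is in a chart. -/
theorem W_chart (hB : IsOpen B) (ha : ∀ b ∈ B, AnalyticAt ℂ a b) (hK : ∀ b ∈ B, a b ≠ 0)
    (P : tot B a) : ∃ U x y t, P ∈ U ∧ IsChart (pr : tot B a → _) hlo U x y t := by
  by_cases hP : P ∈ (aff : Set (tot B a))
  · have hm := cA_mem hP
    have hb : pr P ∈ B := hm.1
    obtain ⟨U, x, y, t, h1, -, h2⟩ := amb_cubic isAmb_aff hP (ha _ hb) (hK _ hb) (by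
      filter_upwards [continuousAt_fst.eventually (hB.mem_nhds hb)] with z hz
      exact ⟨fun h => h.2, fun h => ⟨hz, h⟩⟩) hm.2
    exact ⟨U, x, y, t, h1, h2⟩
  · obtain ⟨U, x, y, h1, -, h2⟩ := far_chart hB ha ((mem_aff_or_far P).resolve_left hP) (by
      rw [wC_eq_zero hP]; simp [sw1])
    exact ⟨U, x, y, _, h1, h2⟩

end Vale.Agent.P269CW

end
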