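import Vale.Agent.P273.H724.Core

/-! A vector field on a cubic `y ^ 2 = f(x)` which is small at infinity is zero. -/

noncomputable section

namespace Vale.Agent.P269CW

open Filter Topology Polynomial Vale.Agent.P273.H724

/-- **A vector field on `y ^ 2 = f(x)` is zero** (`v x y` is the value of `D x` at the point
`(x, y)`). -/
theorem field_eq_zero3 (f : ℂ[X]) (hdeg : 3 ≤ f.natDegree) (hmult : ∀ b, f.rootMultiplicity b ≤ 2)
    (v : ℂ → ℂ → ℂ)
    (h1 : ∀ x₀, f.eval x₀ ≠ 0 → ∀ ρ : ℂ → ℂ, AnalyticAt ℂ ρ x₀ →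
      (∀ᶠ x in 𝓝 x₀, ρ x ^ 2 = f.eval x) → DifferentiableAt ℂ (fun x => v x (ρ x)) x₀)
    (h2 : ∀ b, f.eval b = 0 → ∀ ε > 0, ∀ᶠ x in 𝓝[≠] b, ∀ y, y ^ 2 = f.eval x → ‖v x y‖ ≤ ε)
    (h3 : ∀ ε > 0, ∀ᶠ x in cocompact ℂ, ∀ y, y ^ 2 = f.eval x →
      ‖v x y‖ ≤ ε * ‖x‖ ^ 2 ∧ ‖v x y‖ ≤ ε * ‖y‖) :
    ∀ x y, f.eval x ≠ 0 → y ^ 2 = f.eval x → v x y = 0 := by
  classical
  have hf : f ≠ 0 := by rintro rfl; simp at hdeg
  set Z : Finset ℂ := f.roots.toFinset with hZ
  have hZm : ∀ x, x ∈ Z ↔ f.eval x = 0 := by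
    intro x; rw [hZ, Multiset.mem_toFinset, mem_roots hf]; rfl
  have hZc : 2 ≤ Z.card := by
    have hsp : f.Splits := IsAlgClosed.splits f
    have hcard : Multiset.card f.roots = f.natDegree := (splits_iff_card_roots.1 hsp)
    have h4 : Multiset.card f.roots ≤ 2 * Z.card := by
      rw [← Multiset.toFinset_sum_count_eq, mul_comm, ← smul_eq_mul]
      refine Finset.sum_le_card_nsmul _ _ _ fun b _ => ?_
      rw [count_roots]
      exact hmult b
    omega
  -- the square root
  set r : ℂ → ℂ := fun x => (f.eval x) ^ (1 / 2 : ℂ) with hr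
  have hr2 : ∀ x, r x ^ 2 = f.eval x := by
    intro x
    have := Complex.cpow_nat_inv_pow (f.eval x) (n := 2) two_ne_zero
    simpa only [hr, one_div, Nat.cast_ofNat] using this
  have hr0 : ∀ x, f.eval x ≠ 0 → r x ≠ 0 := by
    intro x hx h0
    apply hx
    rw [← hr2, h0]; ring
  have hpm : ∀ x y z : ℂ, y ^ 2 = f.eval x → z ^ 2 = f.eval x → y = z ∨ y = -z := by
    intro x y z h4 h5
    exact sq_eq_sq_iff_eq_or_eq_neg.1 (h4.trans h5.symm)
  -- the symmetric part
  have hS : ∀ x, x ∉ Z → v x (r x) + v x (-r x) = 0 := by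
    set P : ℂ[X] := ∏ b ∈ Z, (X - C b) with hP
    have hPe : ∀ x, P.eval x = ∏ b ∈ Z, (x - b) := by
      intro x; rw [hP, eval_prod]; simp
    have hP0 : ∀ x, x ∉ Z → P.eval x ≠ 0 := by
      intro x hx
      rw [hPe, Finset.prod_ne_zero_iff]
      intro b hb h0
      exact hx (by rwa [sub_eq_zero.1 h0])
    have key := eq_zero_of_removable Z (fun x => (v x (r x) + v x (-r x)) / P.eval x) ?_ ?_ ?_
    · intro x hx
      have := key x hx
      rw [div_eq_zero_iff] at this
      exact this.resolve_right (hP0 x hx)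
    · intro x₀ hx₀
      have h0 : f.eval x₀ ≠ 0 := fun h => hx₀ ((hZm x₀).2 h)
      obtain ⟨ρ, hρa, hρ2, hρ0⟩ := exists_root h0 (hr2 x₀)
      have hd : DifferentiableAt ℂ (fun x => (v x (ρ x) + v x (-ρ x)) / P.eval x) x₀ := by
        refine DifferentiableAt.div ?_ P.differentiable.differentiableAt (hP0 x₀ hx₀)
        refine (h1 x₀ h0 ρ hρa (Eventually.of_forall hρ2)).add ?_
        exact h1 x₀ h0 (fun x => -ρ x) hρa.neg (Eventually.of_forall fun x => by
          rw [neg_sq, hρ2])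
      refine hd.congr_of_eventuallyEq (Eventually.of_forall fun x => ?_)
      rcases hpm x (r x) (ρ x) (hr2 x) (hρ2 x) with h | h
      · simp only [h]
      · simp only [h, neg_neg, add_comm]
    · intro b hb
      have hb0 := (hZm b).1 hb
      have hPb : ∀ x, P.eval x = (x - b) * ∏ c ∈ Z.erase b, (x - c) := by
        intro x; rw [hPe, ← Finset.mul_prod_erase Z _ hb]
      have hq : Continuous fun x : ℂ => ∏ c ∈ Z.erase b, (x - c) := by fun_prop
      have hqb : (∏ c ∈ Z.erase b, (b - c)) ≠ 0 := by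
        rw [Finset.prod_ne_zero_iff]
        intro c hc h0
        exact (Finset.mem_erase.1 hc).1 (sub_eq_zero.1 h0).symm
      have ht : Tendsto (fun x => v x (r x) + v x (-r x)) (𝓝[≠] b) (𝓝 0) := by
        rw [Metric.tendsto_nhds]
        intro ε hε
        filter_upwards [h2 b hb0 (ε / 4) (by positivity)] with x hx
        rw [dist_zero_right]
        have e1 := hx (r x) (hr2 x)
        have e2 := hx (-r x) (by rw [neg_sq, hr2])
        calc ‖v x (r x) + v x (-r x)‖ ≤ ‖v x (r x)‖ + ‖v x (-r x)‖ := norm_add_le _ _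
          _ ≤ ε / 4 + ε / 4 := add_le_add e1 e2
          _ < ε := by linarith
      have ht2 := ht.div ((hq.tendsto b).mono_left nhdsWithin_le_nhds) hqb
      rw [zero_div] at ht2
      refine ht2.congr' ?_
      filter_upwards [self_mem_nhdsWithin] with x hx
      have hxb : x - b ≠ 0 := sub_ne_zero.2 hx
      simp only [Pi.div_apply]
      rw [hPb]
      field_simp
    · have hPne : P ≠ 0 := by
        rw [hP]; exact Finset.prod_ne_zero_iff.2 fun b _ => X_sub_C_ne_zero b
      have hPdeg : 2 ≤ P.natDegree := by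
        rw [hP, natDegree_prod_of_monic _ _ fun b _ => monic_X_sub_C b]
        simpa using hZc
      obtain ⟨c, hc, hcP⟩ := growth hPne hPdeg
      rw [Metric.tendsto_nhds]
      intro ε hε
      have h1 : ∀ᶠ x in cocompact ℂ, (1 : ℝ) ≤ ‖x‖ :=
        (tendsto_norm_cocompact_atTop (E := ℂ)).eventually (eventually_ge_atTop _)
      filter_upwards [h3 (ε * c / 4) (by positivity), hcP, h1] with x hx hxP hx1
      have e1 := (hx (r x) (hr2 x)).1
      have e2 := (hx (-r x) (by rw [neg_sq, hr2])).1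
      have e3 : ‖v x (r x) + v x (-r x)‖ ≤ ε / 2 * (c * ‖x‖ ^ 2) :=
        (norm_add_le _ _).trans ((add_le_add e1 e2).trans (le_of_eq (by ring)))
      have e4 : 0 < c * ‖x‖ ^ 2 := by positivity
      rw [dist_zero_right, norm_div, div_lt_iff₀ (lt_of_lt_of_le e4 hxP)]
      calc ‖v x (r x) + v x (-r x)‖ ≤ ε / 2 * (c * ‖x‖ ^ 2) := e3
        _ < ε * (c * ‖x‖ ^ 2) := mul_lt_mul_of_pos_right (by linarith) e4
        _ ≤ ε * ‖P.eval x‖ := mul_le_mul_of_nonneg_left hxP hε.le
  -- the antisymmetric part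
  have hT : ∀ x, x ∉ Z → (v x (r x) - v x (-r x)) / r x = 0 := by
    refine eq_zero_of_removable Z (fun x => (v x (r x) - v x (-r x)) / r x) ?_ ?_ ?_
    · intro x₀ hx₀
      have h0 : f.eval x₀ ≠ 0 := fun h => hx₀ ((hZm x₀).2 h)
      obtain ⟨ρ, hρa, hρ2, hρ0⟩ := exists_root h0 (hr2 x₀)
      have hd : DifferentiableAt ℂ (fun x => (v x (ρ x) - v x (-ρ x)) / ρ x) x₀ := by
        refine DifferentiableAt.div ?_ hρa.differentiableAt (by rw [hρ0]; exact hr0 x₀ h0)
        refine (h1 x₀ h0 ρ hρa (Eventually.of_forall hρ2)).sub ?_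
        exact h1 x₀ h0 (fun x => -ρ x) hρa.neg (Eventually.of_forall fun x => by
          rw [neg_sq, hρ2])
      refine hd.congr_of_eventuallyEq (Eventually.of_forall fun x => ?_)
      rcases hpm x (r x) (ρ x) (hr2 x) (hρ2 x) with h | h
      · simp only [h]
      · simp only [h, neg_neg]
        rw [div_neg, ← neg_div, neg_sub]
    · intro b hb
      have hb0 := (hZm b).1 hb
      obtain ⟨c, hc, hcf⟩ := lower_at_root hf b (hmult b)
      rw [Metric.tendsto_nhds]
      intro ε hε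
      have hs : 0 < Real.sqrt c := Real.sqrt_pos.2 hc
      filter_upwards [h2 b hb0 (ε * Real.sqrt c / 4) (by positivity),
        nhdsWithin_le_nhds hcf, self_mem_nhdsWithin] with x hx hxc hxb
      have hxb' : 0 < ‖x - b‖ := norm_pos_iff.2 (sub_ne_zero.2 hxb)
      rw [dist_zero_right, norm_mul, norm_div]
      have e1 := hx (r x) (hr2 x)
      have e2 := hx (-r x) (by rw [neg_sq, hr2])
      have e3 : ‖v x (r x) - v x (-r x)‖ ≤ ε * Real.sqrt c / 2 := by
        refine (norm_sub_le _ _).trans ((add_le_add e1 e2).trans (by linarith))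
      have e4 : Real.sqrt c * ‖x - b‖ ≤ ‖r x‖ := by
        have e5 : ‖r x‖ ^ 2 = ‖f.eval x‖ := by rw [← norm_pow, hr2]
        refine le_of_sq_le_sq ?_ (norm_nonneg _)
        rw [e5, mul_pow, Real.sq_sqrt hc.le]
        exact hxc
      have e6 : 0 < ‖r x‖ := lt_of_lt_of_le (by positivity) e4
      rw [← mul_div_assoc, div_lt_iff₀ e6]
      calc ‖x - b‖ * ‖v x (r x) - v x (-r x)‖ ≤ ‖x - b‖ * (ε * Real.sqrt c / 2) :=
            mul_le_mul_of_nonneg_left e3 hxb'.le
        _ = ε / 2 * (Real.sqrt c * ‖x - b‖) := by ring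
        _ ≤ ε / 2 * ‖r x‖ := mul_le_mul_of_nonneg_left e4 (by positivity)
        _ < ε * ‖r x‖ := mul_lt_mul_of_pos_right (by linarith) e6
    · rw [Metric.tendsto_nhds]
      intro ε hε
      filter_upwards [h3 (ε / 4) (by positivity)] with x hx
      have e1 := (hx (r x) (hr2 x)).2
      have e2 := (hx (-r x) (by rw [neg_sq, hr2])).2
      rw [norm_neg] at e2
      have e3 : ‖v x (r x) - v x (-r x)‖ ≤ ε / 2 * ‖r x‖ :=
        (norm_sub_le _ _).trans ((add_le_add e1 e2).trans (le_of_eq (by ring)))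
      rw [dist_zero_right, norm_div]
      rcases (norm_nonneg (r x)).eq_or_lt with h0 | h0
      · rw [← h0, div_zero]; exact hε
      · rw [div_lt_iff₀ h0]
        exact lt_of_le_of_lt e3 (mul_lt_mul_of_pos_right (by linarith) h0)
  intro x y hx hy
  have hxZ : x ∉ Z := fun h => hx ((hZm x).1 h)
  have hs := hS x hxZ
  have ht := hT x hxZ
  rw [div_eq_zero_iff] at ht
  have ht := ht.resolve_right (hr0 x hx)
  have h9 : v x (r x) = 0 := by linear_combination (hs + ht) / 2
  have h10 : v x (-r x) = 0 := by linear_combination (hs - ht) / 2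
  rcases hpm x y (r x) hy (hr2 x) with h | h
  · rw [h, h9]
  · rw [h, h10]

end Vale.Agent.P269CW

end
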