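import Vale.Agent.P269CW.Conn
import Vale.Agent.P269CW.Core
import Vale.Agent.P273.H724.Field

/-! Vector fields on the Weierstrass cubics: local relations. -/

noncomputable section

namespace Vale.Agent.P269CW

open Set Filter Polynomial Vale.Agent.P273.H183 Vale.Agent.P273.H724
open scoped Topology

/-- The cubic as a polynomial. -/
def pol (a : Fin 2 → ℂ) : ℂ[X] :=
  X ^ 3 + Polynomial.C (a 0) * X + Polynomial.C (a 1)

theorem pol_eval (a : Fin 2 → ℂ) (x : ℂ) : (pol a).eval x = sx a x := by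
  simp [pol, sx]

theorem pol_natDegree (a : Fin 2 → ℂ) : (pol a).natDegree = 3 := by
  unfold pol
  compute_degree!

theorem pol_mult {a : Fin 2 → ℂ} (ha : a ≠ 0) (c : ℂ) : (pol a).rootMultiplicity c ≤ 2 := by
  by_contra hcon
  have h3 : 3 ≤ (pol a).rootMultiplicity c := by omega
  have hne : pol a ≠ 0 := by
    intro h
    have := pol_natDegree a
    rw [h] at this
    simp at this
  have hd : (X - Polynomial.C c) ^ 3 ∣ pol a := (le_rootMultiplicity_iff hne).1 h3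
  obtain ⟨q, hq⟩ := hd
  have e : ∀ x, sx a x = (x - c) ^ 3 * q.eval x := by
    intro x
    rw [← pol_eval, hq]
    simp
  have h0 : sx a c = 0 := by rw [e c]; ring
  have key : ∀ x, x ≠ c → sx1 a c + hx c x * (x - c) = (x - c) ^ 2 * q.eval x := by
    intro x hx'
    have h1 := sx_eq a c x
    rw [h0, zero_add, e x] at h1
    have h2 : (x - c) ≠ 0 := sub_ne_zero.2 hx'
    apply mul_right_cancel₀ h2
    linear_combination -h1
  have hcont1 : Continuous fun x => sx1 a c + hx c x * (x - c) := by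
    unfold hx
    fun_prop
  have hcont2 : Continuous fun x => (x - c) ^ 2 * q.eval x :=
    ((continuous_id.sub continuous_const).pow 2).mul q.continuous
  have heq : ∀ x, sx1 a c + hx c x * (x - c) = (x - c) ^ 2 * q.eval x := by
    have hdense : Dense ({c}ᶜ : Set ℂ) := dense_compl_singleton c
    intro x
    exact congrFun (Continuous.ext_on hdense hcont1 hcont2 fun y hy => key y hy) x
  have h1 : sx1 a c = 0 := by
    have := heq c
    simpa using this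
  have h2 : hx c c = 0 := by
    have hk : ∀ x, x ≠ c → hx c x = (x - c) * q.eval x := by
      intro x hx'
      have h3 := heq x
      rw [h1, zero_add] at h3
      have h4 : (x - c) ≠ 0 := sub_ne_zero.2 hx'
      apply mul_right_cancel₀ h4
      linear_combination h3
    have hc3 : Continuous fun x => hx c x := by
      unfold hx
      fun_prop
    have hc4 : Continuous fun x => (x - c) * q.eval x :=
      (continuous_id.sub continuous_const).mul q.continuous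
    have := congrFun (Continuous.ext_on (dense_compl_singleton c) hc3 hc4 fun y hy => hk y hy) c
    simpa using this
  exact no_triple ha h0 h1 h2

theorem pol_ne (a : Fin 2 → ℂ) : pol a ≠ 0 := by
  intro h
  have := pol_natDegree a
  rw [h] at this
  simp at this

/-- The roots are isolated. -/
theorem sx_ne_eventually (a : Fin 2 → ℂ) (c : ℂ) : ∀ᶠ x in 𝓝[≠] c, sx a x ≠ 0 := by
  have hfin : ({x | sx a x = 0} \ {c} : Set ℂ).Finite := by
    refine Set.Finite.subset ((pol a).roots.toFinset.finite_toSet) ?_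
    rintro x ⟨hx', -⟩
    rw [Finset.mem_coe, Multiset.mem_toFinset, mem_roots (pol_ne a)]
    exact (pol_eval a x).trans hx'
  have hopen := hfin.isClosed.isOpen_compl.mem_nhds (show c ∈ ({x | sx a x = 0} \ {c} : Set ℂ)ᶜ by simp)
  filter_upwards [nhdsWithin_le_nhds hopen, self_mem_nhdsWithin] with x h1 h2 h3
  exact h1 ⟨h3, h2⟩

variable {m : ℕ} {B : Set (Fin m → ℂ)} {a : (Fin m → ℂ) → Fin 2 → ℂ} {b : Fin m → ℂ}

/-- Neighbourhoods of a point in affine coordinates. -/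
theorem ev_ptA (z₀ : Zaff B a) {φ : tot B a → Prop} (h : ∀ᶠ Q in 𝓝 (ptA z₀), φ Q) :
    ∀ᶠ z in 𝓝 z₀.1, ∀ hz : z ∈ Zaff B a, φ (ptA ⟨z, hz⟩) := by
  obtain ⟨T, hT, hTs⟩ := mem_nhds_induced _ _ _ |>.1 h
  have h1 : emb ⁻¹' T ∈ 𝓝 z₀.1 := continuous_emb.continuousAt.preimage_mem_nhds hT
  filter_upwards [h1] with z hz hz'
  exact hTs hz

/-- Neighbourhoods of a point in the coordinates near infinity. -/
theorem ev_ptF (z₀ : Zfar B a) {φ : tot B a → Prop} (h : ∀ᶠ Q in 𝓝 (ptF z₀), φ Q) :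
    ∀ᶠ z in 𝓝 z₀.1, ∀ hz : z ∈ Zfar B a, φ (ptF ⟨z, hz⟩) := by
  obtain ⟨T, hT, hTs⟩ := mem_nhds_induced _ _ _ |>.1 h
  have h1 : emb' ⁻¹' T ∈ 𝓝 z₀.1 := continuous_emb'.continuousAt.preimage_mem_nhds hT
  filter_upwards [h1] with z hz hz'
  exact hTs hz

theorem near_rt {c : ℂ} (hc : sx (a b) c = 0) {S : Set ((Fin m → ℂ) × ℂ × ℂ)}
    (hS : S ∈ 𝓝 ((b, c, 0) : (Fin m → ℂ) × ℂ × ℂ)) :
    ∀ᶠ x in 𝓝 c, ∀ y, y ^ 2 = sx (a b) x → ((b, x, y) : (Fin m → ℂ) × ℂ × ℂ) ∈ S := by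
  have h1 : Tendsto (fun p : ℂ × ℂ => ((b, p.1, p.2) : (Fin m → ℂ) × ℂ × ℂ)) (𝓝 (c, 0))
      (𝓝 (b, c, 0)) := by
    have : Continuous fun p : ℂ × ℂ => ((b, p.1, p.2) : (Fin m → ℂ) × ℂ × ℂ) := by fun_prop
    exact this.tendsto (c, 0)
  have h2 := h1 hS
  rw [mem_map, mem_nhds_prod_iff] at h2
  obtain ⟨U, hU, V, hV, hUV⟩ := h2
  obtain ⟨δ, hδ, hδV⟩ := Metric.mem_nhds_iff.1 hV
  have h3 : ∀ᶠ x in 𝓝 c, ‖sx (a b) x‖ < δ ^ 2 := by
    have : Tendsto (fun x => ‖sx (a b) x‖) (𝓝 c) (𝓝 ‖sx (a b) c‖) :=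
      (continuous_sx1 (a b)).norm.tendsto c
    rw [hc, norm_zero] at this
    exact this.eventually (gt_mem_nhds (by positivity))
  filter_upwards [hU, h3] with x hx hx2 y hy
  have h4 : y ∈ V := by
    refine hδV ?_
    rw [Metric.mem_ball, dist_zero_right]
    rw [← hy, norm_pow] at hx2
    exact lt_of_pow_lt_pow_left₀ 2 hδ.le hx2
  have h5 : ((x, y) : ℂ × ℂ) ∈ U ×ˢ V := ⟨hx, h4⟩
  exact hUV h5

/-- Local representation of `D f`. -/
theorem field_rep {L : Type} {C : Fam L m} {D : (C.X → ℂ) → C.X → ℂ} {O : Set C.X}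
    {α β : C.X → ℂ} {Z : Set ((Fin m → ℂ) × ℂ × ℂ)} {p : C.X} (hD : C.IsField b D)
    (hA : IsAmb C.π C.hol O α β Z) (hpO : p ∈ O) (hp : p ∈ C.fib b) {f : C.X → ℂ}
    (hf : C.hol f p) : ∃ g : (Fin m → ℂ) × ℂ × ℂ → ℂ, AnalyticAt ℂ g (C.π p, α p, β p) ∧
      ∀ᶠ q in 𝓝[C.fib b] p, D f q = g (C.π q, α q, β q) := by
  obtain ⟨h, hh, he⟩ := field_hol hD hp hf
  obtain ⟨g, hg, he'⟩ := (hA.hol_iff p hpO h).1 hh
  refine ⟨g, hg, ?_⟩
  filter_upwards [he, nhdsWithin_le_nhds he'] with q h1 h2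
  rw [h1, h2]

variable {L : Type} {hne : B.Nonempty}
  {D : ((W L B a hne).X → ℂ) → (W L B a hne).X → ℂ}

theorem ambA : IsAmb (W L B a hne).π (W L B a hne).hol (aff : Set (tot B a)) xC yC (Zaff B a) :=
  isAmb_aff

theorem ambF : IsAmb (W L B a hne).π (W L B a hne).hol (far : Set (tot B a)) wC uC (Zfar B a) :=
  isAmb_far

/-- The relation between `D x` and `D y`. -/
theorem rel_xy (hD : (W L B a hne).IsField b D) {P : tot B a}
    (hP : P ∈ (aff : Set (tot B a))) (hp : P ∈ (W L B a hne).fib b) :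
    2 * yC P * D yC P = sx1 (a b) (xC P) * D xC P := by
  have hx := amb_hol_fst (ambA (L := L) (hne := hne)) hP
  have hy := amb_hol_snd (ambA (L := L) (hne := hne)) hP
  have h1 := field_mul hD hp hy hy
  have h2 : D (yC * yC) P = deriv (sx (a b)) (xC P) * D xC P := by
    refine field_comp hD ambA hP hp (amb_hol_mul ambA hP hy hy) hx ?_ ?_
    · have : Differentiable ℂ (sx (a b)) := fun x => (hasDerivAt_sx (a b) x).differentiableAt
      exact this.analyticAt _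
    · filter_upwards [self_mem_nhdsWithin, nhdsWithin_le_nhds (isOpen_aff.mem_nhds hP)] with Q h3 h4
      have h5 : yC Q ^ 2 = sx (a (pr Q)) (xC Q) := (cA_mem h4).2
      have h6 : pr Q = b := h3
      rw [h6] at h5
      change yC Q * yC Q = sx (a b) (xC Q)
      rw [← h5]
      ring
  rw [(hasDerivAt_sx (a b) (xC P)).deriv] at h2
  have h3 := h1.symm.trans h2
  linear_combination h3

/-- The relation between `D x` and `D w`. -/
theorem rel_xw (hD : (W L B a hne).IsField b D) {P : tot B a}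
    (hP : P ∈ (aff : Set (tot B a))) (hP' : P ∈ (far : Set (tot B a)))
    (hp : P ∈ (W L B a hne).fib b) : D xC P = -(xC P) ^ 2 * D wC P := by
  have hx0 : xC P ≠ 0 := (far_iff hP).1 hP'
  have hw : (W L B a hne).hol wC P := amb_hol_fst (ambF (L := L) (hne := hne)) hP'
  have hw0 : wC P ≠ 0 := (aff_iff hP').1 hP
  have hx := amb_hol_fst (ambA (L := L) (hne := hne)) hP
  have h2 : D xC P = deriv (fun w : ℂ => w⁻¹) (wC P) * D wC P := by
    refine field_comp hD ambA hP hp hx hw (analyticAt_id.inv hw0) ?_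
    filter_upwards [nhdsWithin_le_nhds (isOpen_aff.mem_nhds hP),
      nhdsWithin_le_nhds (isOpen_far.mem_nhds hP')] with Q h3 h4
    rw [wC_eq h3 h4, inv_inv]
  rw [h2, deriv_inv, wC_eq hP hP']
  rw [inv_pow, inv_inv]

/-- The value of `D x` at a point. -/
def vv (hb : b ∈ B) (D : ((W L B a hne).X → ℂ) → (W L B a hne).X → ℂ) (x y : ℂ) : ℂ :=
  open scoped Classical in
  if h : y ^ 2 = sx (a b) x then
    D xC (ptA (⟨(b, x, y), ⟨hb, h⟩⟩ : Zaff B a) : tot B a) else 0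

theorem vv_eq (hb : b ∈ B) {x y : ℂ} (h : y ^ 2 = sx (a b) x) :
    vv hb D x y = D xC (ptA (⟨(b, x, y), ⟨hb, h⟩⟩ : Zaff B a) : tot B a) := by
  unfold vv
  rw [dif_pos h]

theorem ptA_fib (hb : b ∈ B) {x y : ℂ} (h : y ^ 2 = sx (a b) x) :
    (ptA (⟨(b, x, y), ⟨hb, h⟩⟩ : Zaff B a) : tot B a) ∈ (W L B a hne).fib b := rfl

theorem xC_ptA {z : Zaff B a} : xC (ptA z) = z.1.2.1 := by rw [xC, cA_ptA]
theorem yC_ptA {z : Zaff B a} : yC (ptA z) = z.1.2.2 := by rw [yC, cA_ptA]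

/-- Near a point with affine coordinates, `D f` is an analytic function of the coordinates. -/
theorem vv_rep (hD : (W L B a hne).IsField b D) (hb : b ∈ B) {x₀ y₀ : ℂ}
    (h : y₀ ^ 2 = sx (a b) x₀) {f : tot B a → ℂ}
    (hf : (W L B a hne).hol f (ptA ⟨(b, x₀, y₀), ⟨hb, h⟩⟩)) :
    ∃ g : (Fin m → ℂ) × ℂ × ℂ → ℂ, AnalyticAt ℂ g (b, x₀, y₀) ∧
      ∀ᶠ z in 𝓝 ((b, x₀, y₀) : (Fin m → ℂ) × ℂ × ℂ), ∀ hz : z ∈ Zaff B a, z.1 = b →
        D f (ptA ⟨z, hz⟩) = g z := by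
  obtain ⟨g, hg, he⟩ := field_rep hD ambA (ptA_mem _) (ptA_fib hb h) hf
  have e0 : ((W L B a hne).π (ptA (⟨(b, x₀, y₀), ⟨hb, h⟩⟩ : Zaff B a)),
      xC (ptA (⟨(b, x₀, y₀), ⟨hb, h⟩⟩ : Zaff B a)),
      yC (ptA (⟨(b, x₀, y₀), ⟨hb, h⟩⟩ : Zaff B a))) = (b, x₀, y₀) := by
    rw [xC_ptA, yC_ptA]; rfl
  rw [e0] at hg
  refine ⟨g, hg, ?_⟩
  have he2 : ∀ᶠ Q in 𝓝 (ptA (⟨(b, x₀, y₀), ⟨hb, h⟩⟩ : Zaff B a)),
      Q ∈ (W L B a hne).fib b → D f Q = g ((W L B a hne).π Q, xC Q, yC Q) :=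
    eventually_nhdsWithin_iff.1 he
  filter_upwards [ev_ptA _ he2] with z hz hz' hzb
  have h1 := hz hz' hzb
  rw [h1, xC_ptA, yC_ptA]
  rfl

theorem holx {z : Zaff B a} : (W L B a hne).hol xC (ptA z) :=
  amb_hol_fst (ambA (L := L) (hne := hne)) (ptA_mem z)

theorem holy {z : Zaff B a} : (W L B a hne).hol yC (ptA z) :=
  amb_hol_snd (ambA (L := L) (hne := hne)) (ptA_mem z)

end Vale.Agent.P269CW

end
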