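import Vale.Agent.P269CW.Fld1

/-! Vector fields on the Weierstrass cubics: branch points and nodes. -/

noncomputable section

namespace Vale.Agent.P269CW

open Set Filter Polynomial Vale.Agent.P273.H183 Vale.Agent.P273.H724
open scoped Topology

variable {m : ℕ} {B : Set (Fin m → ℂ)} {a : (Fin m → ℂ) → Fin 2 → ℂ} {b : Fin m → ℂ}
variable {L : Type} {hne : B.Nonempty}
  {D : ((W L B a hne).X → ℂ) → (W L B a hne).X → ℂ}

/-- `D x = 0` at the branch points and at the nodes. -/
theorem root_zero (hD : (W L B a hne).IsField b D) (hb : b ∈ B) (ha : a b ≠ 0) {c : ℂ}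
    (hc : sx (a b) c = 0) (h0 : (0 : ℂ) ^ 2 = sx (a b) c) :
    D xC (ptA (⟨(b, c, 0), ⟨hb, h0⟩⟩ : Zaff B a)) = 0 := by
  by_cases h1 : sx1 (a b) c = 0
  · -- double root
    have h2 := no_triple ha hc h1
    obtain ⟨g₁, hg₁, he₁⟩ := vv_rep hD hb h0 (holx (L := L) (hne := hne))
    obtain ⟨g₂, hg₂, he₂⟩ := vv_rep hD hb h0 (holy (L := L) (hne := hne))
    have hsq : ∀ x, sx (a b) x = hx c x * (x - c) ^ 2 := by
      intro x
      rw [sx_eq (a b) c x, hc, h1]; ring
    -- the derivative is `(x - c) k(x)`
    obtain ⟨k, hk, hkc, hkx⟩ : ∃ k : ℂ → ℂ, Continuous k ∧ k c = 2 * hx c c ∧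
        ∀ x, sx1 (a b) x = (x - c) * k x := by
      have hhd : Differentiable ℂ (hx c) := by
        unfold hx; fun_prop
      have hcd : Continuous (deriv (hx c)) := by
        have : Differentiable ℂ (deriv (hx c)) := by
          intro x
          exact (hhd.analyticAt x).deriv.differentiableAt
        exact this.continuous
      refine ⟨fun x => deriv (hx c) x * (x - c) + 2 * hx c x, ?_, by simp, ?_⟩
      · exact (hcd.mul (continuous_id.sub continuous_const)).add
          (continuous_const.mul hhd.continuous)
      · intro x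
        have e1 := hasDerivAt_sx (a b) x
        have e2 : HasDerivAt (fun x => hx c x * (x - c) ^ 2)
            (deriv (hx c) x * (x - c) ^ 2 + hx c x * (2 * (x - c))) x := by
          have e3 := (hhd x).hasDerivAt
          have e4 : HasDerivAt (fun x : ℂ => (x - c) ^ 2) (2 * (x - c)) x := by
            have h3 := ((hasDerivAt_id x).sub_const c).fun_pow 2
            simpa using h3
          exact e3.mul e4
        have e5 : (fun x => hx c x * (x - c) ^ 2) = sx (a b) := funext fun x => (hsq x).symm
        rw [e5] at e2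
        rw [e1.unique e2]
        ring
    -- on each branch
    have key : ∀ s : ℂ, s ^ 2 = hx c c →
        2 * s * g₂ (b, c, 0) = 2 * hx c c * g₁ (b, c, 0) := by
      intro s hs
      set r : ℂ → ℂ := fun x => s * (hx c x / hx c c) ^ (1 / 2 : ℂ) with hr
      have hr2 : ∀ x, r x ^ 2 = hx c x := by
        intro x
        have h3 : (((hx c x / hx c c) ^ (1 / 2 : ℂ)) ^ 2) =
            hx c x / hx c c := by
          have := Complex.cpow_nat_inv_pow (hx c x / hx c c) (n := 2) two_ne_zero
          simpa only [one_div, Nat.cast_ofNat] using this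
        rw [hr]
        simp only
        rw [mul_pow, h3, hs, mul_div_cancel₀ _ h2]
      have hrc : r c = s := by
        rw [hr]; simp [div_self h2]
      have hrcont : ContinuousAt r c := by
        have hhc : Continuous (hx c) := by unfold hx; fun_prop
        refine continuousAt_const.mul (ContinuousAt.cpow (hhc.continuousAt.div_const _)
          continuousAt_const ?_)
        simp [div_self h2]
      -- points on the branch
      have hpt : Tendsto (fun x => ((b, x, (x - c) * r x) : (Fin m → ℂ) × ℂ × ℂ)) (𝓝 c)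
          (𝓝 (b, c, 0)) := by
        have : ContinuousAt (fun x => ((b, x, (x - c) * r x) : (Fin m → ℂ) × ℂ × ℂ)) c :=
          continuousAt_const.prodMk (continuousAt_id.prodMk
            ((continuousAt_id.sub continuousAt_const).mul hrcont))
        have h3 := this.tendsto
        simp only [sub_self, zero_mul] at h3
        exact h3
      have hZ : ∀ x, ((b, x, (x - c) * r x) : (Fin m → ℂ) × ℂ × ℂ) ∈ Zaff B a := by
        intro x
        refine ⟨hb, ?_⟩
        simp only
        rw [mul_pow, hr2, hsq]; ring
      have hev : ∀ᶠ x in 𝓝 c, x ≠ c →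
          2 * r x * g₂ (b, x, (x - c) * r x) = k x * g₁ (b, x, (x - c) * r x) := by
        filter_upwards [hpt.eventually he₁, hpt.eventually he₂] with x h3 h4 hxc
        have h5 := h3 (hZ x) rfl
        have h6 := h4 (hZ x) rfl
        have h7 := rel_xy hD (ptA_mem ⟨_, hZ x⟩) (show ptA ⟨_, hZ x⟩ ∈ (W L B a hne).fib b from rfl)
        rw [h5, h6, xC_ptA, yC_ptA, hkx] at h7
        have h8 : x - c ≠ 0 := sub_ne_zero.2 hxc
        apply mul_left_cancel₀ h8
        linear_combination h7
      have hcont : ContinuousAt (fun x => 2 * r x * g₂ (b, x, (x - c) * r x) -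
          k x * g₁ (b, x, (x - c) * r x)) c := by
        have c1 : Tendsto (fun x => g₁ (b, x, (x - c) * r x)) (𝓝 c) (𝓝 (g₁ (b, c, 0))) :=
          hg₁.continuousAt.tendsto.comp hpt
        have c2 : Tendsto (fun x => g₂ (b, x, (x - c) * r x)) (𝓝 c) (𝓝 (g₂ (b, c, 0))) :=
          hg₂.continuousAt.tendsto.comp hpt
        have c3 : ContinuousAt (fun x => g₁ (b, x, (x - c) * r x)) c := by
          rw [ContinuousAt]; simpa using c1
        have c4 : ContinuousAt (fun x => g₂ (b, x, (x - c) * r x)) c := by
          rw [ContinuousAt]; simpa using c2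
        exact ((continuousAt_const.mul hrcont).mul c4).sub (hk.continuousAt.mul c3)
      have hz : (fun x => 2 * r x * g₂ (b, x, (x - c) * r x) -
          k x * g₁ (b, x, (x - c) * r x)) c = 0 := by
        by_contra hne
        have h9 := (hcont.eventually_ne hne).and hev
        have h10 : ∀ᶠ x in 𝓝[≠] c, False := by
          filter_upwards [nhdsWithin_le_nhds h9, self_mem_nhdsWithin] with x h11 h12
          exact h11.1 (by rw [h11.2 h12, sub_self])
        exact (h10.exists).elim fun _ h => h
      simp only [sub_self, zero_mul, hrc, hkc] at hz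
      linear_combination hz
    obtain ⟨s, hs⟩ : ∃ s : ℂ, s ^ 2 = hx c c := by
      refine ⟨(hx c c) ^ (1 / 2 : ℂ), ?_⟩
      have := Complex.cpow_nat_inv_pow (hx c c) (n := 2) two_ne_zero
      simpa only [one_div, Nat.cast_ofNat] using this
    have k1 := key s hs
    have k2 := key (-s) (by rw [neg_sq, hs])
    have k3 : hx c c * g₁ (b, c, 0) = 0 := by linear_combination -(k1 + k2) / 4
    have k4 : g₁ (b, c, 0) = 0 := (mul_eq_zero.1 k3).resolve_left h2
    have k5 := he₁.self_of_nhds ⟨hb, h0⟩ rfl
    rw [k5, k4]
  · have h2 := rel_xy hD (ptA_mem ⟨_, ⟨hb, h0⟩⟩) (ptA_fib (L := L) (hne := hne) hb h0)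
    rw [xC_ptA, yC_ptA] at h2
    simp only [mul_zero, zero_mul] at h2
    exact (mul_eq_zero.1 h2.symm).resolve_left h1

end Vale.Agent.P269CW

end
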