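import Vale.Agent.P269CW.Fld2

/-! Vector fields on the Weierstrass cubics: the point at infinity. -/

noncomputable section

namespace Vale.Agent.P269CW

open Set Filter Polynomial Vale.Agent.P273.H183 Vale.Agent.P273.H724
open scoped Topology

variable {m : ℕ} {B : Set (Fin m → ℂ)} {a : (Fin m → ℂ) → Fin 2 → ℂ} {b : Fin m → ℂ}
variable {L : Type} {hne : B.Nonempty}
  {D : ((W L B a hne).X → ℂ) → (W L B a hne).X → ℂ}

theorem sw_zero (a : Fin 2 → ℂ) : sw a 0 = 0 := by simp [sw]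

theorem sw1_zero (a : Fin 2 → ℂ) : sw1 a 0 = 1 := by simp [sw1]

theorem continuous_sw1' (a : Fin 2 → ℂ) : Continuous (sw1 a) := by
  unfold sw1; fun_prop

/-- Near infinity the points of the curve are near the point at infinity. -/
theorem near_inf {S : Set ((Fin m → ℂ) × ℂ × ℂ)}
    (hS : S ∈ 𝓝 ((b, 0, 0) : (Fin m → ℂ) × ℂ × ℂ)) :
    ∀ᶠ w in 𝓝 (0 : ℂ), ∀ u, u ^ 2 = sw (a b) w → ((b, w, u) : (Fin m → ℂ) × ℂ × ℂ) ∈ S := by
  have h1 : Tendsto (fun p : ℂ × ℂ => ((b, p.1, p.2) : (Fin m → ℂ) × ℂ × ℂ)) (𝓝 (0, 0))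
      (𝓝 (b, 0, 0)) := by
    have : Continuous fun p : ℂ × ℂ => ((b, p.1, p.2) : (Fin m → ℂ) × ℂ × ℂ) := by fun_prop
    exact this.tendsto (0, 0)
  have h2 := h1 hS
  rw [mem_map, mem_nhds_prod_iff] at h2
  obtain ⟨U, hU, V, hV, hUV⟩ := h2
  obtain ⟨δ, hδ, hδV⟩ := Metric.mem_nhds_iff.1 hV
  have h3 : ∀ᶠ x in 𝓝 (0 : ℂ), ‖sw (a b) x‖ < δ ^ 2 := by
    have : Tendsto (fun x => ‖sw (a b) x‖) (𝓝 0) (𝓝 ‖sw (a b) 0‖) :=
      (continuous_sw1 (a b)).norm.tendsto 0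
    rw [sw_zero, norm_zero] at this
    exact this.eventually (gt_mem_nhds (by positivity))
  filter_upwards [hU, h3] with x hx hx2 y hy
  have h4 : y ∈ V := by
    refine hδV ?_
    rw [Metric.mem_ball, dist_zero_right]
    rw [← hy, norm_pow] at hx2
    exact lt_of_pow_lt_pow_left₀ 2 hδ.le hx2
  have h5 : ((x, y) : ℂ × ℂ) ∈ U ×ˢ V := ⟨hx, h4⟩
  exact hUV h5

theorem ptA_eq_ptF (hb : b ∈ B) {x y : ℂ} (h : y ^ 2 = sx (a b) x) (hx : x ≠ 0) :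
    ∃ h' : (y / x ^ 2) ^ 2 = sw (a b) x⁻¹, (ptA (⟨(b, x, y), ⟨hb, h⟩⟩ : Zaff B a) : tot B a) =
      ptF ⟨(b, x⁻¹, y / x ^ 2), ⟨hb, h'⟩⟩ := by
  have h1 : (y / x ^ 2) ^ 2 = sw (a b) x⁻¹ := by
    rw [sw_eq _ hx, ← h]; ring
  refine ⟨h1, Subtype.ext ?_⟩
  exact (emb'_tr (z := ((b, x, y) : (Fin m → ℂ) × ℂ × ℂ)) hx).symm

theorem wC_ptF {z : Zfar B a} : wC (ptF z) = z.1.2.1 := by rw [wC, cF_ptF]
theorem uC_ptF {z : Zfar B a} : uC (ptF z) = z.1.2.2 := by rw [uC, cF_ptF]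

/-- The relation between `D w` and `D u`. -/
theorem rel_wu (hD : (W L B a hne).IsField b D) {P : tot B a}
    (hP : P ∈ (far : Set (tot B a))) (hp : P ∈ (W L B a hne).fib b) :
    2 * uC P * D uC P = sw1 (a b) (wC P) * D wC P := by
  have hx := amb_hol_fst (ambF (L := L) (hne := hne)) hP
  have hy := amb_hol_snd (ambF (L := L) (hne := hne)) hP
  have h1 := field_mul hD hp hy hy
  have h2 : D (uC * uC) P = deriv (sw (a b)) (wC P) * D wC P := by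
    refine field_comp hD ambF hP hp (amb_hol_mul ambF hP hy hy) hx ?_ ?_
    · have : Differentiable ℂ (sw (a b)) := fun x => (hasDerivAt_sw (a b) x).differentiableAt
      exact this.analyticAt _
    · filter_upwards [self_mem_nhdsWithin, nhdsWithin_le_nhds (isOpen_far.mem_nhds hP)] with Q h3 h4
      have h5 : uC Q ^ 2 = sw (a (pr Q)) (wC Q) := (cF_mem h4).2
      have h6 : pr Q = b := h3
      rw [h6] at h5
      change uC Q * uC Q = sw (a b) (wC Q)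
      rw [← h5]
      ring
  rw [(hasDerivAt_sw (a b) (wC P)).deriv] at h2
  have h3 := h1.symm.trans h2
  linear_combination h3

/-- `D f` is small near the marked point. -/
theorem small_inf [Nonempty L] (hD : (W L B a hne).IsField b D) (hb : b ∈ B) {f : tot B a → ℂ}
    (hf : hlo f (ptF ⟨(b, 0, 0), inf_mem hb⟩)) {ε : ℝ} (hε : 0 < ε) :
    ∀ᶠ z in 𝓝 ((b, 0, 0) : (Fin m → ℂ) × ℂ × ℂ), ∀ hz : z ∈ Zfar B a, z.1 = b →
      ‖D f (ptF ⟨z, hz⟩)‖ ≤ ε := by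
  have h0 : D f (ptF ⟨(b, 0, 0), inf_mem hb⟩) = 0 := by
    have h := hD.2.2 (Classical.arbitrary L) f
    change hlo f (oo hne b) → D f (oo hne b) = 0 at h
    rw [oo_eq hne hb] at h
    exact h hf
  have hc := field_cont hD (ambF (L := L) (hne := hne)) (ptF_mem ⟨(b, 0, 0), inf_mem hb⟩)
    (show ptF (⟨(b, 0, 0), inf_mem hb⟩ : Zfar B a) ∈ (W L B a hne).fib b from rfl) hf
  have h1 : ∀ᶠ Q in 𝓝[(W L B a hne).fib b] (ptF (⟨(b, 0, 0), inf_mem hb⟩ : Zfar B a)),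
      ‖D f Q‖ < ε := hc.norm.eventually (gt_mem_nhds (by
      change ‖D f (ptF ⟨(b, 0, 0), inf_mem hb⟩)‖ < ε
      rw [h0, norm_zero]; exact hε))
  filter_upwards [ev_ptF _ (eventually_nhdsWithin_iff.1 h1)] with z hz hz' hzb
  exact (hz hz' hzb).le

/-- `D x` is small at infinity. -/
theorem vv_inf [Nonempty L] (hD : (W L B a hne).IsField b D) (hb : b ∈ B) :
    ∀ ε > 0, ∀ᶠ x in cocompact ℂ, ∀ y, y ^ 2 = (pol (a b)).eval x →
      ‖vv hb D x y‖ ≤ ε * ‖x‖ ^ 2 ∧ ‖vv hb D x y‖ ≤ ε * ‖y‖ := by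
  intro ε hε
  have h1 := small_inf hD hb (amb_hol_fst (ambF (L := L) (hne := hne)) (ptF_mem _)) hε
  have h2 := small_inf hD hb (amb_hol_snd (ambF (L := L) (hne := hne)) (ptF_mem _))
    (show 0 < ε / 4 by positivity)
  have h3 := near_inf (a := a) (h1.and h2)
  have h3' : ∀ᶠ w in 𝓝 (0 : ℂ), (1 / 2 : ℝ) < ‖sw1 (a b) w‖ :=
    ((continuous_sw1' (a b)).norm.tendsto 0).eventually (lt_mem_nhds (by
      rw [sw1_zero, norm_one]; norm_num))
  have h4 : Tendsto (fun x : ℂ => x⁻¹) (cocompact ℂ) (𝓝 0) := by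
    have := tendsto_inv₀_cobounded (α := ℂ)
    rwa [Metric.cobounded_eq_cocompact] at this
  filter_upwards [h4.eventually h3, h4.eventually h3',
    (isCompact_singleton (x := (0 : ℂ))).compl_mem_cocompact] with x h5 h5' h6 y hy
  have hx0 : x ≠ 0 := h6
  rw [pol_eval] at hy
  obtain ⟨h7, h8⟩ := ptA_eq_ptF hb hy hx0
  obtain ⟨h9, h10⟩ := h5 _ h7
  have hPA : (ptA (⟨(b, x, y), ⟨hb, hy⟩⟩ : Zaff B a) : tot B a) ∈ (far : Set (tot B a)) := by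
    rw [h8]; exact ptF_mem _
  have e1 : ‖vv hb D x y‖ = ‖x‖ ^ 2 * ‖D wC (ptF ⟨(b, x⁻¹, y / x ^ 2), ⟨hb, h7⟩⟩)‖ := by
    rw [vv_eq hb hy, rel_xw hD (ptA_mem _) hPA (ptA_fib hb hy), xC_ptA, h8]
    simp only
    rw [norm_mul, norm_neg, norm_pow]
  have k1 := h9 ⟨hb, h7⟩ rfl
  have k2 := h10 ⟨hb, h7⟩ rfl
  have k3 := congrArg norm (rel_wu hD (ptF_mem ⟨(b, x⁻¹, y / x ^ 2), ⟨hb, h7⟩⟩)
    (show ptF (⟨(b, x⁻¹, y / x ^ 2), ⟨hb, h7⟩⟩ : Zfar B a) ∈ (W L B a hne).fib b from rfl))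
  rw [wC_ptF, uC_ptF] at k3
  simp only [norm_mul, norm_div, norm_pow, Complex.norm_ofNat] at k3
  have hxp : 0 < ‖x‖ ^ 2 := pow_pos (norm_pos_iff.2 hx0) 2
  set A := ‖D wC (ptF ⟨(b, x⁻¹, y / x ^ 2), ⟨hb, h7⟩⟩)‖ with hA
  set E := ‖D uC (ptF ⟨(b, x⁻¹, y / x ^ 2), ⟨hb, h7⟩⟩)‖ with hE
  have hA0 : 0 ≤ A := norm_nonneg _
  rw [e1]
  refine ⟨by rw [mul_comm]; exact mul_le_mul_of_nonneg_right k1 hxp.le, ?_⟩
  have k4 : ‖x‖ ^ 2 * (‖sw1 (a b) x⁻¹‖ * A) = 2 * ‖y‖ * E := by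
    rw [← k3]; field_simp
  have k5 : 2 * ‖y‖ * E ≤ 2 * ‖y‖ * (ε / 4) := mul_le_mul_of_nonneg_left k2 (by positivity)
  have k6 : ‖x‖ ^ 2 * (1 / 2 * A) ≤ ‖x‖ ^ 2 * (‖sw1 (a b) x⁻¹‖ * A) :=
    mul_le_mul_of_nonneg_left (mul_le_mul_of_nonneg_right h5'.le hA0) hxp.le
  linarith

/-- **`D x = 0`** at all affine points. -/
theorem vv_zero [Nonempty L] (hD : (W L B a hne).IsField b D) (hb : b ∈ B) (ha : a b ≠ 0) {x y : ℂ}
    (hx : sx (a b) x ≠ 0) (hy : y ^ 2 = sx (a b) x) : vv hb D x y = 0 := by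
  refine field_eq_zero3 (pol (a b)) (by rw [pol_natDegree]) (pol_mult ha) (vv hb D)
    ?_ ?_ (vv_inf hD hb) x y (by rwa [pol_eval]) (by rw [pol_eval]; exact hy)
  · intro x₀ hx₀ ρ hρ hρ2
    simp only [pol_eval] at hx₀ hρ2
    have h0 : ρ x₀ ^ 2 = sx (a b) x₀ := hρ2.self_of_nhds
    obtain ⟨g, hg, he⟩ := vv_rep hD hb h0 (holx (L := L) (hne := hne))
    have hpt : Tendsto (fun x => ((b, x, ρ x) : (Fin m → ℂ) × ℂ × ℂ)) (𝓝 x₀)
        (𝓝 (b, x₀, ρ x₀)) :=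
      (continuousAt_const.prodMk (continuousAt_id.prodMk hρ.continuousAt)).tendsto
    have h1 : (fun x => vv hb D x (ρ x)) =ᶠ[𝓝 x₀] fun x => g (b, x, ρ x) := by
      filter_upwards [hpt.eventually he, hρ2] with x h2 h3
      rw [vv_eq hb h3]
      exact h2 ⟨hb, h3⟩ rfl
    have h2 : AnalyticAt ℂ (fun x => ((b, x, ρ x) : (Fin m → ℂ) × ℂ × ℂ)) x₀ :=
      analyticAt_const.prod (analyticAt_id.prod hρ)
    have h3 : AnalyticAt ℂ (fun x => g (b, x, ρ x)) x₀ :=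
      AnalyticAt.comp (g := g) (f := fun x => ((b, x, ρ x) : (Fin m → ℂ) × ℂ × ℂ)) (x := x₀) hg h2
    exact h3.differentiableAt.congr_of_eventuallyEq h1
  · intro c hc ε hε
    rw [pol_eval] at hc
    have h0 : (0 : ℂ) ^ 2 = sx (a b) c := by rw [hc]; ring
    have h1 := root_zero hD hb ha hc h0
    obtain ⟨g, hg, he⟩ := vv_rep hD hb h0 (holx (L := L) (hne := hne))
    have h2 : g (b, c, 0) = 0 := by rw [← he.self_of_nhds ⟨hb, h0⟩ rfl, h1]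
    have h3 : ∀ᶠ z in 𝓝 ((b, c, 0) : (Fin m → ℂ) × ℂ × ℂ), ‖g z‖ < ε := by
      have := hg.continuousAt.norm
      rw [ContinuousAt, h2, norm_zero] at this
      exact this.eventually (gt_mem_nhds hε)
    filter_upwards [nhdsWithin_le_nhds (near_rt hc (he.and h3))] with x h4 y hy
    rw [pol_eval] at hy
    obtain ⟨h5, h6⟩ := h4 y hy
    rw [vv_eq hb hy, h5 ⟨hb, hy⟩ rfl]
    exact h6.le

/-- `D = 0` at the affine points off the branch points. -/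
theorem smooth_zero [Nonempty L] (hD : (W L B a hne).IsField b D) (hb : b ∈ B) (ha : a b ≠ 0)
    {P : tot B a} (hPA : P ∈ (aff : Set (tot B a))) (hp : P ∈ (W L B a hne).fib b)
    (hy0 : yC P ≠ 0) {f : tot B a → ℂ} (hf : (W L B a hne).hol f P) : D f P = 0 := by
  have hπ : pr P = b := hp
  obtain ⟨⟨⟨b', x₀, y₀⟩, hz⟩, rfl⟩ := exists_aff hPA
  have hb' : b' = b := hp
  subst hb'
  have hy : y₀ ^ 2 = sx (a b') x₀ := hz.2
  have hy1 : y₀ ≠ 0 := by rwa [yC_ptA] at hy0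
  have hx0 : sx (a b') x₀ ≠ 0 := by rw [← hy]; exact pow_ne_zero 2 hy1
  have h1 : D xC (ptA (⟨(b', x₀, y₀), hz⟩ : Zaff B a)) = 0 := by
    have := vv_zero hD hb ha hx0 hy
    rwa [vv_eq hb hy] at this
  obtain ⟨g, hg, he⟩ := (ambA (L := L) (hne := hne)).hol_iff _ hPA f |>.1 hf
  obtain ⟨ρ, hρa, hρ2, hρ0⟩ := exists_root (f := pol (a b')) (x₀ := x₀) (y₀ := y₀)
    (by rwa [pol_eval]) (by rw [pol_eval]; exact hy)
  have e0 : ((W L B a hne).π (ptA (⟨(b', x₀, y₀), hz⟩ : Zaff B a)),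
      xC (ptA (⟨(b', x₀, y₀), hz⟩ : Zaff B a)),
      yC (ptA (⟨(b', x₀, y₀), hz⟩ : Zaff B a))) = (b', x₀, y₀) := by
    rw [xC_ptA, yC_ptA]; rfl
  rw [e0] at hg
  have h2 : D f (ptA (⟨(b', x₀, y₀), hz⟩ : Zaff B a)) =
      deriv (fun x => g (b', x, ρ x)) (xC (ptA (⟨(b', x₀, y₀), hz⟩ : Zaff B a))) *
        D xC (ptA (⟨(b', x₀, y₀), hz⟩ : Zaff B a)) := by
    refine field_comp hD ambA hPA hp hf (amb_hol_fst (ambA (L := L) (hne := hne)) hPA) ?_ ?_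
    · rw [xC_ptA]
      have h2 : AnalyticAt ℂ (fun x => ((b', x, ρ x) : (Fin m → ℂ) × ℂ × ℂ)) x₀ :=
        analyticAt_const.prod (analyticAt_id.prod hρa)
      refine AnalyticAt.comp (g := g) (f := fun x => ((b', x, ρ x) : (Fin m → ℂ) × ℂ × ℂ))
        (x := x₀) ?_ h2
      rw [hρ0]; exact hg
    · have hcx : ContinuousAt (xC : tot B a → ℂ) (ptA ⟨(b', x₀, y₀), hz⟩) :=
        amb_hol_cont (ambA (L := L) (hne := hne)) hPA (amb_hol_fst (ambA (L := L) (hne := hne)) hPA)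
      have hcy : ContinuousAt (yC : tot B a → ℂ) (ptA ⟨(b', x₀, y₀), hz⟩) :=
        amb_hol_cont (ambA (L := L) (hne := hne)) hPA (amb_hol_snd (ambA (L := L) (hne := hne)) hPA)
      have hcρ : ContinuousAt (fun Q : tot B a => ρ (xC Q)) (ptA ⟨(b', x₀, y₀), hz⟩) := by
        refine ContinuousAt.comp (f := (xC : tot B a → ℂ)) (g := ρ) ?_ hcx
        rw [xC_ptA]; exact hρa.continuousAt
      have hnz : ∀ᶠ Q in 𝓝 (ptA (⟨(b', x₀, y₀), hz⟩ : Zaff B a)), yC Q + ρ (xC Q) ≠ 0 := by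
        refine (hcy.add hcρ).eventually_ne ?_
        simp only [Pi.add_apply]
        rw [xC_ptA, yC_ptA]
        simp only [hρ0]
        intro h
        exact hy1 (by linear_combination h / 2)
      filter_upwards [self_mem_nhdsWithin, nhdsWithin_le_nhds he, nhdsWithin_le_nhds hnz,
        nhdsWithin_le_nhds (isOpen_aff.mem_nhds hPA)] with Q h3 h4 h5 h6
      have h7 : yC Q ^ 2 = sx (a (pr Q)) (xC Q) := (cA_mem h6).2
      have h8 : pr Q = b' := h3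
      rw [h8, ← pol_eval, ← hρ2] at h7
      have h9 : yC Q = ρ (xC Q) := by
        rcases sq_eq_sq_iff_eq_or_eq_neg.1 h7 with h | h
        · exact h
        · exact absurd (by rw [h]; ring) h5
      rw [h4, ← h9]
      have h10 : (W L B a hne).π Q = b' := h3
      rw [h10]
  rw [h2, h1, mul_zero]

end Vale.Agent.P269CW

end
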