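import Vale.Agent.P269CW.Fld3

/-! The Weierstrass cubics have no vector fields vanishing at infinity. -/

noncomputable section

namespace Vale.Agent.P269CW

open Set Filter Polynomial Vale.Agent.P273.H183 Vale.Agent.P273.H724
open scoped Topology

variable {m : ℕ} {B : Set (Fin m → ℂ)} {a : (Fin m → ℂ) → Fin 2 → ℂ} {b : Fin m → ℂ}
variable {L : Type} {hne : B.Nonempty}
  {D : ((W L B a hne).X → ℂ) → (W L B a hne).X → ℂ}

/-- Points off the branch points are dense in the fibres. -/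
theorem freq_smooth (hb : b ∈ B) {P : tot B a} (hp : P ∈ (W L B a hne).fib b) :
    ∃ᶠ Q in 𝓝[(W L B a hne).fib b] P, Q ∈ {Q : tot B a | Q ∈ (aff : Set (tot B a)) ∧ yC Q ≠ 0} := by
  rw [frequently_iff]
  intro S hS
  obtain ⟨V, hV, hVS⟩ := mem_nhdsWithin_iff_exists_mem_nhds_inter.1 hS
  by_cases hPA : P ∈ (aff : Set (tot B a))
  · by_cases hy0 : yC P = 0
    · obtain ⟨⟨⟨b', c, y₀⟩, hz⟩, rfl⟩ := exists_aff hPA
      have hb' : b' = b := hp
      subst hb'
      have hy1 : y₀ = 0 := by rwa [yC_ptA] at hy0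
      subst hy1
      have hc : sx (a b') c = 0 := by
        have := hz.2
        simp only [ne_eq, OfNat.ofNat_ne_zero, not_false_eq_true, zero_pow] at this
        exact this.symm
      have h1 := near_rt hc (ev_ptA _ hV)
      have h1' := Eventually.filter_mono (nhdsWithin_le_nhds (s := {c}ᶜ)) h1
      obtain ⟨x, h2, h3⟩ := (h1'.and (sx_ne_eventually (a b') c)).exists
      obtain ⟨y, hy⟩ : ∃ y : ℂ, y ^ 2 = sx (a b') x := by
        refine ⟨(sx (a b') x) ^ (1 / 2 : ℂ), ?_⟩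
        have := Complex.cpow_nat_inv_pow (sx (a b') x) (n := 2) two_ne_zero
        simpa only [one_div, Nat.cast_ofNat] using this
      have h4 := h2 y hy ⟨hb, hy⟩
      refine ⟨ptA ⟨(b', x, y), ⟨hb, hy⟩⟩, hVS ⟨h4, rfl⟩, ptA_mem _, ?_⟩
      rw [yC_ptA]
      intro h5
      simp only at h5
      rw [h5] at hy
      exact h3 (by rw [← hy]; ring)
    · exact ⟨P, hVS ⟨mem_of_mem_nhds hV, hp⟩, hPA, hy0⟩
  · have hPF := (mem_aff_or_far P).resolve_left hPA
    obtain ⟨⟨⟨b', w₀, u₀⟩, hz⟩, rfl⟩ := exists_far hPF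
    have hb' : b' = b := hp
    subst hb'
    have hw : w₀ = 0 := by
      by_contra h
      exact hPA ((aff_iff hPF).2 (by rw [wC, cF_ptF]; exact h))
    subst hw
    have hu : u₀ = 0 := by
      have h : u₀ ^ 2 = sw (a b') 0 := hz.2
      rw [sw_zero] at h
      simpa using h
    subst hu
    have h1 := near_inf (a := a) (ev_ptF _ hV)
    have h2 : ∀ᶠ w in 𝓝 (0 : ℂ), 1 + a b' 0 * w ^ 2 + a b' 1 * w ^ 3 ≠ 0 := by
      have hc : Continuous fun w : ℂ => 1 + a b' 0 * w ^ 2 + a b' 1 * w ^ 3 := by fun_prop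
      exact hc.continuousAt.eventually_ne (by simp)
    have h3 : ∀ᶠ w in 𝓝[≠] (0 : ℂ), w ≠ 0 := self_mem_nhdsWithin
    have h1' := Eventually.filter_mono (nhdsWithin_le_nhds (s := {(0 : ℂ)}ᶜ)) h1
    have h2' := Eventually.filter_mono (nhdsWithin_le_nhds (s := {(0 : ℂ)}ᶜ)) h2
    obtain ⟨w, ⟨h4, h5⟩, h6⟩ := ((h1'.and h2').and h3).exists
    obtain ⟨r, hr⟩ := IsAlgClosed.exists_pow_nat_eq (sw (a b') w) (n := 2) (by norm_num)
    have hzw : ((b', w, r) : (Fin m → ℂ) × ℂ × ℂ) ∈ Zfar B a := ⟨hb, hr⟩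
    have hQF := ptF_mem (⟨_, hzw⟩ : Zfar B a)
    have hQA : ptF (⟨_, hzw⟩ : Zfar B a) ∈ (aff : Set (tot B a)) :=
      (aff_iff hQF).2 (by rw [wC, cF_ptF]; exact h6)
    refine ⟨ptF ⟨_, hzw⟩, hVS ⟨h4 r hr hzw, rfl⟩, hQA, ?_⟩
    intro h7
    have h8 := uC_eq hQA hQF
    rw [h7, zero_div, uC, cF_ptF] at h8
    simp only at h8
    rw [h8] at hr
    have h9 : w * (1 + a b' 0 * w ^ 2 + a b' 1 * w ^ 3) = 0 := by
      simp only [sw] at hr
      linear_combination -hr
    exact h5 ((mul_eq_zero.1 h9).resolve_left h6)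

/-- The Weierstrass cubics have no vector fields which vanish at infinity. -/
theorem W_field [Nonempty L] (ha : ∀ b ∈ B, a b ≠ 0) (b : Fin m → ℂ) (hb : b ∈ B)
    (D : ((W L B a hne).X → ℂ) → (W L B a hne).X → ℂ) (hD : (W L B a hne).IsField b D)
    (P : (W L B a hne).X) (hp : P ∈ (W L B a hne).fib b) (f : (W L B a hne).X → ℂ)
    (hf : (W L B a hne).hol f P) : D f P = 0 := by
  have hS : ∀ Q ∈ {Q : tot B a | Q ∈ (aff : Set (tot B a)) ∧ yC Q ≠ 0},
      Q ∈ (W L B a hne).fib b → ∀ f, (W L B a hne).hol f Q → D f Q = 0 :=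
    fun Q hQ hQb f hf => smooth_zero hD hb (ha b hb) hQ.1 hQb hQ.2 hf
  rcases mem_aff_or_far (P : tot B a) with h | h
  · exact field_zero_of_dense hD (ambA (L := L) (hne := hne)) h hp (freq_smooth hb hp) hS hf
  · exact field_zero_of_dense hD (ambF (L := L) (hne := hne)) h hp (freq_smooth hb hp) hS hf

/-- The section at infinity is continuous and holomorphic. -/
theorem oo_at (hB : IsOpen B) (hb : b ∈ B) :
    ContinuousAt (oo hne : _ → tot B a) b ∧ ∀ f, hlo f (oo hne b : tot B a) →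
      AnalyticAt ℂ (fun b' => f (oo hne b' : tot B a)) b := by
  have hcoord : AnalyticAt ℂ (fun b' : Fin m → ℂ => ((b', 0, 0) : (Fin m → ℂ) × ℂ × ℂ)) b :=
    analyticAt_id.prod analyticAt_const
  have hc : ContinuousAt (oo hne : _ → tot B a) b := by
    have h1 : ContinuousAt (fun b' : Fin m → ℂ => emb' ((b', 0, 0) : (Fin m → ℂ) × ℂ × ℂ)) b :=
      continuous_emb'.continuousAt.comp hcoord.continuousAt
    rw [Topology.IsEmbedding.subtypeVal.continuousAt_iff]
    refine h1.congr ?_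
    filter_upwards [hB.mem_nhds hb] with b' h
    rw [Function.comp_apply, oo_eq hne h]; rfl
  refine ⟨hc, fun f hf => ?_⟩
  have hm : (oo hne b : tot B a) ∈ (far : Set (tot B a)) := by rw [oo_eq hne hb]; exact ptF_mem _
  obtain ⟨g, hg, e⟩ := (hlo_far hm).1 hf
  rw [oo_eq hne hb, cF_ptF] at hg
  have h2 : AnalyticAt ℂ (fun b' : Fin m → ℂ => g (b', 0, 0)) b := AnalyticAt.comp hg hcoord
  refine h2.congr ?_
  filter_upwards [hB.mem_nhds hb, hc.eventually e] with b' h3 h4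
  rw [h4, oo_eq hne h3, cF_ptF]

end Vale.Agent.P269CW

end
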