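import Vale.Agent.P269CW.Tot

/-! The Weierstrass family: holomorphic functions, ambient charts, the marked point. -/

noncomputable section

namespace Vale.Agent.P269CW

open Set Filter
open scoped Topology ComplexConjugate
open Vale.Agent.P273.H183 (Fam IsChart IsAmb)

variable {m : ℕ} {B : Set (Fin m → ℂ)} {a : (Fin m → ℂ) → Fin 2 → ℂ}

theorem continuousOn_cA : ContinuousOn (cA : tot B a → _) aff := by
  have h : ∀ P ∈ (aff : Set (tot B a)), P.1.2.1 ≠ 0 := fun P hP => hP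
  have h3 : ∀ P ∈ (aff : Set (tot B a)), P.1.2.1 ^ 2 ≠ 0 := fun P hP => pow_ne_zero 2 hP
  unfold cA crd
  fun_prop (disch := assumption)

theorem continuousOn_cF : ContinuousOn (cF : tot B a → _) far := by
  have h : ∀ P ∈ (far : Set (tot B a)), 1 - P.1.2.1 ≠ 0 := fun P hP => sub_ne_zero.2 (Ne.symm hP)
  have h3 : ∀ P ∈ (far : Set (tot B a)), (1 - P.1.2.1) ^ 2 ≠ 0 := fun P hP => pow_ne_zero 2 (h P hP)
  unfold cF crd'
  fun_prop (disch := assumption)

/-- Holomorphic functions. -/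
def hlo (f : tot B a → ℂ) (P : tot B a) : Prop :=
  (P ∈ (aff : Set (tot B a)) ∧ ∃ g : (Fin m → ℂ) × ℂ × ℂ → ℂ,
    AnalyticAt ℂ g (cA P) ∧ ∀ᶠ Q in 𝓝 P, f Q = g (cA Q)) ∨
  (P ∈ (far : Set (tot B a)) ∧ ∃ g : (Fin m → ℂ) × ℂ × ℂ → ℂ,
    AnalyticAt ℂ g (cF P) ∧ ∀ᶠ Q in 𝓝 P, f Q = g (cF Q))

theorem hlo_aff {f : tot B a → ℂ} {P : tot B a} (hP : P ∈ (aff : Set (tot B a))) :
    hlo f P ↔ ∃ g : (Fin m → ℂ) × ℂ × ℂ → ℂ,
      AnalyticAt ℂ g (cA P) ∧ ∀ᶠ Q in 𝓝 P, f Q = g (cA Q) := by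
  constructor
  · rintro (⟨-, h⟩ | ⟨hF, g, hg, he⟩)
    · exact h
    · refine ⟨g ∘ tr, ?_, ?_⟩
      · refine AnalyticAt.comp ?_ (analyticAt_tr ((far_iff hP).1 hF))
        rwa [← cF_eq_tr hP hF]
      · filter_upwards [he, isOpen_aff.mem_nhds hP, isOpen_far.mem_nhds hF] with Q hQ h1 h2
        rw [hQ, Function.comp_apply, ← cF_eq_tr h1 h2]
  · intro h
    exact Or.inl ⟨hP, h⟩

theorem hlo_far {f : tot B a → ℂ} {P : tot B a} (hP : P ∈ (far : Set (tot B a))) :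
    hlo f P ↔ ∃ g : (Fin m → ℂ) × ℂ × ℂ → ℂ,
      AnalyticAt ℂ g (cF P) ∧ ∀ᶠ Q in 𝓝 P, f Q = g (cF Q) := by
  constructor
  · rintro (⟨hA, g, hg, he⟩ | ⟨-, h⟩)
    · refine ⟨g ∘ tr, ?_, ?_⟩
      · refine AnalyticAt.comp ?_ (analyticAt_tr ((aff_iff hP).1 hA))
        rwa [← cA_eq_tr hA hP]
      · filter_upwards [he, isOpen_aff.mem_nhds hA, isOpen_far.mem_nhds hP] with Q hQ h1 h2
        rw [hQ, Function.comp_apply, ← cA_eq_tr h1 h2]
    · exact h
  · intro h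
    exact Or.inr ⟨hP, h⟩

theorem isAmb_aff : IsAmb (pr : tot B a → _) hlo aff xC yC (Zaff B a) := by
  refine ⟨isOpen_aff, ?_, ?_, fun P hP f => hlo_aff hP⟩
  · intro P hP Q hQ e
    change cA P = cA Q at e
    apply Subtype.ext
    rw [← emb_cA hP, ← emb_cA hQ, e]
  · intro V hV
    change _ ↔ ∃ W, IsOpen W ∧ cA '' V = _
    constructor
    · intro hVo
      obtain ⟨T, hT, rfl⟩ := isOpen_induced_iff.1 hVo
      refine ⟨emb ⁻¹' T, hT.preimage continuous_emb, ?_⟩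
      ext z
      constructor
      · rintro ⟨P, hP, rfl⟩
        refine ⟨?_, cA_mem (hV hP)⟩
        rw [mem_preimage, emb_cA (hV hP)]; exact hP
      · rintro ⟨h1, h2⟩
        exact ⟨ptA ⟨z, h2⟩, h1, cA_ptA _⟩
    · rintro ⟨W, hW, e⟩
      have : V = aff ∩ cA ⁻¹' W := by
        ext P
        constructor
        · intro hP
          exact ⟨hV hP, (e ▸ mem_image_of_mem _ hP : cA P ∈ W ∩ Zaff B a).1⟩
        · rintro ⟨h1, h2⟩
          have : cA P ∈ cA '' V := by rw [e]; exact ⟨h2, cA_mem h1⟩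
          obtain ⟨Q, hQ, e'⟩ := this
          have : Q = P := Subtype.ext (by rw [← emb_cA h1, ← emb_cA (hV hQ), e'])
          exact this ▸ hQ
      rw [this]
      exact continuousOn_cA.isOpen_inter_preimage isOpen_aff hW

theorem isAmb_far : IsAmb (pr : tot B a → _) hlo far wC uC (Zfar B a) := by
  refine ⟨isOpen_far, ?_, ?_, fun P hP f => hlo_far hP⟩
  · intro P hP Q hQ e
    change cF P = cF Q at e
    apply Subtype.ext
    rw [← emb'_cF hP, ← emb'_cF hQ, e]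
  · intro V hV
    change _ ↔ ∃ W, IsOpen W ∧ cF '' V = _
    constructor
    · intro hVo
      obtain ⟨T, hT, rfl⟩ := isOpen_induced_iff.1 hVo
      refine ⟨emb' ⁻¹' T, hT.preimage continuous_emb', ?_⟩
      ext z
      constructor
      · rintro ⟨P, hP, rfl⟩
        refine ⟨?_, cF_mem (hV hP)⟩
        rw [mem_preimage, emb'_cF (hV hP)]; exact hP
      · rintro ⟨h1, h2⟩
        exact ⟨ptF ⟨z, h2⟩, h1, cF_ptF _⟩
    · rintro ⟨W, hW, e⟩
      have : V = far ∩ cF ⁻¹' W := by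
        ext P
        constructor
        · intro hP
          exact ⟨hV hP, (e ▸ mem_image_of_mem _ hP : cF P ∈ W ∩ Zfar B a).1⟩
        · rintro ⟨h1, h2⟩
          have : cF P ∈ cF '' V := by rw [e]; exact ⟨h2, cF_mem h1⟩
          obtain ⟨Q, hQ, e'⟩ := this
          have : Q = P := Subtype.ext (by rw [← emb'_cF h1, ← emb'_cF (hV hQ), e'])
          exact this ▸ hQ
      rw [this]
      exact continuousOn_cF.isOpen_inter_preimage isOpen_far hW

theorem inf_mem {b : Fin m → ℂ} (hb : b ∈ B) : ((b, 0, 0) : (Fin m → ℂ) × ℂ × ℂ) ∈ Zfar B a :=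
  ⟨hb, by simp [sw]⟩

open Classical in
/-- The point at infinity of the fibre over `b`. -/
def oo (hne : B.Nonempty) (b : Fin m → ℂ) : tot B a :=
  if hb : b ∈ B then ptF ⟨(b, 0, 0), inf_mem hb⟩ else ptF ⟨(hne.some, 0, 0), inf_mem hne.some_mem⟩

theorem oo_eq (hne : B.Nonempty) {b : Fin m → ℂ} (hb : b ∈ B) :
    (oo hne b : tot B a) = ptF ⟨(b, 0, 0), inf_mem hb⟩ := dif_pos hb

/-- The Weierstrass family, with the point at infinity as marked point. -/
def W (L : Type) (B : Set (Fin m → ℂ)) (a : (Fin m → ℂ) → Fin 2 → ℂ) (hne : B.Nonempty) :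
    Fam L m where
  B := B
  X := tot B a
  π := pr
  hol := hlo
  s _ := oo hne

end Vale.Agent.P269CW

end
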