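import Vale.Agent.P269CW.Spec2

/-! Row V11: scalings of the differential and of the metrics; counting isomorphisms. -/

set_option linter.unusedSectionVars false
set_option linter.unusedVariables false

noncomputable section

namespace Vale.Agent.P269CW

open Set Filter MeasureTheory Vale.Agent.P273.H183 Vale.Agent.P272.K
open Vale.Agent.P269C (nf FH Co Dr Df Om Bas Fr Is Iso Sm Sp IsPsi IsLam Hm Gm fg)
open Vale.Agent.P269CK
open scoped Topology Classical Matrix ComplexOrder ContDiff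

theorem card_post {L : Type} {m m' m'' : ℕ} {C₀ : Fam L m} {E : Fam L m'} {F : Fam L m''} {x y f}
    {Ψ : E.X → F.X} (hne : (C₀.fib x).Nonempty) (hE : E.IsStable) (hF : F.IsStable) (hy : y ∈ E.B)
    (h : Is E y F f Ψ) : (Iso C₀ x E y).ncard = (Iso C₀ x F f).ncard := by
  obtain ⟨-, Ψ', h', hi, hi'⟩ := Is.inv hE hF hy h
  refine ncard_congr (fun Θ _ q => Ψ (Θ q)) (fun Θ hΘ => ?_) (fun Θ Θ' hΘ hΘ' e => ?_)
    fun Θ hΘ => ?_
  · obtain ⟨Φ, rfl⟩ := iso_ext hne Θ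
    exact Is.comp (Φ := Φ) hΘ h
  · funext q
    rw [← hi (Θ q) (hΘ.2.2.1 ▸ mem_range_self q), ← hi (Θ' q) (hΘ'.2.2.1 ▸ mem_range_self q)]
    exact congrArg Ψ' (congrFun e q)
  · obtain ⟨Φ, rfl⟩ := iso_ext hne Θ
    exact ⟨fun q => Ψ' (Φ q), Is.comp (Φ := Φ) hΘ h',
      funext fun q => hi' _ (hΘ.2.2.1 ▸ mem_range_self q)⟩

theorem dd_scale {L : Type} {m m' : ℕ} {C : Fam L m} {C' : Fam L m'} {b b'} {Φ : C.X → C'.X}
    (hC : C.IsStable) (hC' : C'.IsStable) (hb : b ∈ C.B) (h : Is C b C' b' Φ) {p : C.X}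
    (hp : p ∈ C.fib b) {f z : C.X → ℂ} {f' z' : C'.X → ℂ} {k : ℂ} (hf : FH C f p) (hz : Co C z p)
    (ez : ∀ q ∈ C.fib b, z q = z' (Φ q)) (ef : ∀ᶠ q in nf C p, f' (Φ q) = k * f q) :
    Co C' z' (Φ p) ∧ dd C' f' z' (Φ p) = k * dd C f z p := by
  have := hC'.2.1
  have hK := P273SD.isCompact_fib hC hb
  have e : (fun q => z' (Φ q)) =ᶠ[nf C p] z := (ev_mem hp).mono fun q hq => (ez q hq).symm
  have h1 := (Is.co h hK hp z').2 (Co.congr hz e)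
  exact ⟨h1, Dr.dd_eq (chd hC') h1 ((Is.dr h hK hp f' z' _).2
    (Dr.congr (Dr.const_mul (dr_dd (chd hC) hf hz) k) ef e))⟩

variable {m m' : ℕ} {B : Set (Cm m)} {B' : Set (Cm m')} {a : Cm m → Cm 2} {a' : Cm m' → Cm 2}
  {hne : B.Nonempty} {hne' : B'.Nonempty} {b : Cm m} {b' : Cm m'} {s : ℂ}
  {Φ : tot B a → tot B' a'}

theorem Ok.st (h : Ok B a) : (W (Fin 1) B a hne).IsStable := W_isStable _ hne h.op h.an h.ne

/-- The map is the scaling by `s` on the fibre. -/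
def Sc (b : Cm m) (s : ℂ) (Φ : tot B a → tot B' a') : Prop := ∀ p : tot B a, pr p = b →
  (p ∈ (aff : Set (tot B a)) → Φ p ∈ (aff : Set (tot B' a')) ∧ xC (Φ p) = s ^ 2 * xC p ∧
    yC (Φ p) = s ^ 3 * yC p) ∧
  (p ∈ (far : Set (tot B a)) → Φ p ∈ (far : Set (tot B' a')) ∧ wC (Φ p) = wC p / s ^ 2 ∧
    uC (Φ p) = uC p / s)

theorem om_scale (h : Ok B a) (h' : Ok B' a') (hb : b ∈ B) (hs : s ≠ 0)
    (e0 : a' b' 0 = s ^ 4 * a b 0) (hΦ : Is (W (Fin 1) B a hne) b (W (Fin 1) B' a' hne') b' Φ)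
    (hS : Sc b s Φ) {p : tot B a} (hp : pr p = b) {z : tot B a → ℂ} {z' : tot B' a' → ℂ}
    (hz : Co (W (Fin 1) B a hne) z p) (ez : ∀ q ∈ (W (Fin 1) B a hne).fib b, z q = z' (Φ q)) :
    om (Fin 1) B a hne z p = s * om (Fin 1) B' a' hne' z' (Φ p) := by
  have cA := h.cubA (L := Fin 1) (hne := hne)
  have cF := h.cubF (L := Fin 1) (hne := hne)
  have hq : pr (Φ p) = b' := (Is.bij hΦ).mapsTo hp
  have ev := ev_mem (C := W (Fin 1) B a hne) hp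
  by_cases hA : p ∈ (aff : Set (tot B a))
  · obtain ⟨k1, k2, k3⟩ := (hS p hp).1 hA
    have eA := nf_le (C := W (Fin 1) B a hne) p (isOpen_aff.mem_nhds hA)
    by_cases h0 : yC p = 0
    · have h1 := h.reg hz hA h0
      obtain ⟨k4, k5⟩ := dd_scale h.st h'.st hb hΦ hp (f := yC) (f' := yC) (k := s ^ 3)
        (fh_of_hol (cA.hy p hA)) hz ez (by
          filter_upwards [ev, eA] with q e1 e2 using ((hS q e1).1 e2).2.2)
      have k6 : sx1 (a' (pr (Φ p))) (xC (Φ p)) = s ^ 4 * sx1 (a (pr p)) (xC p) := by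
        rw [hq, hp, k2, sx1, sx1, e0]; ring
      rw [h.om_y hA h1 hz, h'.om_y k1 (k6 ▸ mul_ne_zero (pow_ne_zero 4 hs) h1) k4, k5, k6]
      field_simp
    · obtain ⟨k4, k5⟩ := dd_scale h.st h'.st hb hΦ hp (f := xC) (f' := xC) (k := s ^ 2)
        (fh_of_hol (cA.hx p hA)) hz ez (by
          filter_upwards [ev, eA] with q e1 e2 using ((hS q e1).1 e2).2.1)
      rw [om_x hA h0, om_x k1 (k3 ▸ mul_ne_zero (pow_ne_zero 3 hs) h0), k5, k3]
      field_simp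
  · have hF := (mem_aff_or_far p).resolve_left hA
    obtain ⟨k1, k2, k3⟩ := (hS p hp).2 hF
    have hA' : Φ p ∉ (aff : Set (tot B' a')) := fun k =>
      (aff_iff k1).1 k (by rw [k2, wC_eq_zero hA, zero_div])
    obtain ⟨k4, k5⟩ := dd_scale h.st h'.st hb hΦ hp (f := uC) (f' := uC) (k := s⁻¹)
      (fh_of_hol (cF.hy p hF)) hz ez (by
        filter_upwards [ev, nf_le (C := W (Fin 1) B a hne) p (isOpen_far.mem_nhds hF)] with q e1 e2
        exact ((hS q e1).2 e2).2.2.trans (div_eq_inv_mul _ _))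
    unfold om
    rw [if_neg hA, if_neg hA', k5]
    field_simp

theorem psi_scale {H : Hm (Fin 1)} (hH : IsPsi H) (h : Ok B a) (h' : Ok B' a') (hb : b ∈ B)
    (hb' : b' ∈ B') (hs : s ≠ 0) (hΦ : Is (W (Fin 1) B a hne) b (W (Fin 1) B' a' hne') b' Φ)
    (hS : Sc b s Φ) :
    H m (W (Fin 1) B a hne) b 0 uC = ‖s‖ ^ 2 * H m' (W (Fin 1) B' a' hne') b' 0 uC := by
  refine hH.1 m m' _ _ b b' _ hΦ 0 uC (fun q => uC (Φ q)) uC s (fun _ => pr_oo hne hb)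
    (h.co_oo hb).2 (h'.co_oo hb').2 (fun _ => rfl) ?_
  have h1 := Dr.const_mul (Dr.refl (C := W (Fin 1) B a hne) (fun q => uC (Φ q)) (oo hne b)) s
  rw [mul_one] at h1
  refine Dr.congr h1 ?_ EventuallyEq.rfl
  filter_upwards [ev_mem (C := W (Fin 1) B a hne) (pr_oo hne hb),
    nf_le (C := W (Fin 1) B a hne) _ (isOpen_far.mem_nhds (oo_far hne hb))] with q e1 e2
  rw [((hS q e1).2 e2).2.2, mul_div_cancel₀ _ hs]

theorem lam_scale {G : Gm 1} (hG : IsLam G) (h : Ok B a) (h' : Ok B' a') (hb : b ∈ B)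
    (hb' : b' ∈ B') (hs : s ≠ 0) (e0 : a' b' 0 = s ^ 4 * a b 0)
    (hΦ : Is (W (Fin 1) B a hne) b (W (Fin 1) B' a' hne') b' Φ) (hS : Sc b s Φ) :
    (G m (fg (W (Fin 1) B a hne)) b (fun _ => om (Fin 1) B a hne) 0 0).re =
      ‖s‖ ^ 2 * (G m' (fg (W (Fin 1) B' a' hne')) b' (fun _ => om (Fin 1) B' a' hne') 0 0).re := by
  have h1 := hG.1 m m' (fg (W (Fin 1) B a hne)) (fg (W (Fin 1) B' a' hne')) b b' _ (is_fg.1 hΦ).1
    (fun _ => om (Fin 1) B a hne) (fun _ => om (Fin 1) B' a' hne') !![s]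
    (h.bas (L := Fin 1) (hne := hne) hb) (h'.bas (L := Fin 1) (hne := hne') hb')
    fun p z z' hz ez j => by
      rw [Fin.sum_univ_one, Subsingleton.elim j 0]
      exact om_scale h h' hb hs e0 hΦ hS p.2 hz fun q hq => ez ⟨q, hq⟩
  rw [h1]
  simp only [Matrix.mul_apply, Fin.sum_univ_one, Matrix.conjTranspose_apply, Matrix.of_apply,
    Matrix.cons_val', Matrix.cons_val_fin_one]
  rw [mul_right_comm, RCLike.star_def, Complex.mul_conj, Complex.re_ofReal_mul,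
    Complex.normSq_eq_norm_sq]

theorem exists_pt (c : Cm 2) : ∃ x y : ℂ, x ≠ 0 ∧ y ≠ 0 ∧ y ^ 2 = sx c x := by
  obtain ⟨x, h1, h2⟩ : ∃ x : ℂ, x ≠ 0 ∧ sx c x ≠ 0 := by
    by_contra h
    push Not at h
    have e1 := h 1 one_ne_zero
    have e2 := h (-1) (neg_ne_zero.2 one_ne_zero)
    have e3 := h 2 two_ne_zero
    simp only [sx] at e1 e2 e3
    have : (6 : ℂ) = 0 := by linear_combination e3 - 3 / 2 * e1 + 1 / 2 * e2
    norm_num at this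
  obtain ⟨y, hy⟩ := IsAlgClosed.exists_pow_nat_eq (sx c x) (n := 2) (by norm_num)
  exact ⟨x, y, h1, by rintro rfl; exact h2 (hy.symm.trans (by ring)), hy⟩

theorem iso_cnt (aut : AUT) (scl : SCL) (h : Ok B a) (h' : Ok B' a') (hb : b ∈ B) (hb' : b' ∈ B')
    (hd : 4 * a b 0 ^ 3 + 27 * a b 1 ^ 2 ≠ 0) :
    (Iso (W (Fin 1) B a hne) b (W (Fin 1) B' a' hne') b').ncard =
      {s : ℂ | s ≠ 0 ∧ a' b' 0 = s ^ 4 * a b 0 ∧ a' b' 1 = s ^ 6 * a b 1}.ncard := by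
  have key : ∀ s : ℂ, ∃ Φ : tot B a → tot B' a',
      s ∈ {s : ℂ | s ≠ 0 ∧ a' b' 0 = s ^ 4 * a b 0 ∧ a' b' 1 = s ^ 6 * a b 1} →
      Is (W (Fin 1) B a hne) b (W (Fin 1) B' a' hne') b' Φ ∧ Sc b s Φ := by
    intro s
    by_cases hs : s ∈ {s : ℂ | s ≠ 0 ∧ a' b' 0 = s ^ 4 * a b 0 ∧ a' b' 1 = s ^ 6 * a b 1}
    · obtain ⟨Φ, hΦ⟩ := scl m m' B B' a a' hne hne' h h' b hb b' hb' s hs.1 hs.2.1 hs.2.2
      exact ⟨Φ, fun _ => hΦ⟩
    · exact ⟨fun _ => oo hne' b', fun k => absurd k hs⟩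
  choose F hF using key
  refine (ncard_congr (fun s _ (p : (W (Fin 1) B a hne).fib b) => F s p.1) (fun s hs => (hF s hs).1)
    (fun s s' hs hs' e => ?_) fun Θ hΘ => ?_).symm
  · obtain ⟨x, y, hx, hy, hxy⟩ := exists_pt (a b)
    set p : tot B a := ptA ⟨(b, x, y), hb, hxy⟩ with hp
    have h1 : pr p = b := congrArg Prod.fst (cA_ptA (⟨(b, x, y), hb, hxy⟩ : Zaff B a))
    have h2 : F s p = F s' p := congrFun e ⟨p, h1⟩
    obtain ⟨-, k1, k2⟩ := ((hF s hs).2 p h1).1 (ptA_mem _)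
    obtain ⟨-, k3, k4⟩ := ((hF s' hs').2 p h1).1 (ptA_mem _)
    rw [h2, k3, hp, xC_ptA] at k1
    rw [h2, k4, hp, yC_ptA] at k2
    have e2 : s' ^ 2 = s ^ 2 := mul_right_cancel₀ hx k1
    have e3 : s' ^ 3 = s ^ 3 := mul_right_cancel₀ hy k2
    refine mul_left_cancel₀ (pow_ne_zero 2 hs.1) ?_
    linear_combination -e3 + s' * e2
  · obtain ⟨s, k1, k2, k3, k4⟩ := aut m m' B B' a a' hne hne' h.op h'.op
      (fun b hb => ⟨h.an b hb, h.ne b hb⟩) (fun b hb => ⟨h'.an b hb, h'.ne b hb⟩) b hb b' hb' hd Θ hΘ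
    refine ⟨s, ⟨k1, k2, k3⟩, funext fun p => ?_⟩
    obtain ⟨l1, l2⟩ := hF s ⟨k1, k2, k3⟩
    by_cases hA : p.1 ∈ (aff : Set (tot B a))
    · obtain ⟨l3, l4, l5⟩ := (l2 p.1 p.2).1 hA
      obtain ⟨l6, l7, l8⟩ := k4 p hA
      have l9 : pr (F s p.1) = b' := (Is.bij l1).mapsTo p.2
      have l10 : pr (B := B') (a := a') (Θ p) = b' :=
        (hΘ.2.2.1 ▸ mem_range_self p : Θ p ∈ (W (Fin 1) B' a' hne').fib b')
      exact isAmb_aff.inj l3 l6 (Prod.ext (l9.trans l10.symm)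
        (Prod.ext (l4.trans l7.symm) (l5.trans l8.symm)))
    · have l3 : p.1 = (W (Fin 1) B a hne).s 0 b := by
        have := eq_oo hne hA
        rwa [show pr (B := B) (a := a) p.1 = b from p.2] at this
      exact (l1.2.2.2.1 0 p l3).trans (hΘ.2.2.2.1 0 p l3).symm

theorem Ok.sm (h : Ok B a) (hd : 4 * a b 0 ^ 3 + 27 * a b 1 ^ 2 ≠ 0) :
    Sm (W (Fin 1) B a hne) b := by
  intro p hp
  obtain ⟨κ, ξ, -, -, -, k4, -⟩ := h.loc (L := Fin 1) (hne := hne) (p := p) fun hA h0 h1 => hd (by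
    have h2 : yC (B := B) (a := a) p ^ 2 = sx (a (pr p)) (xC p) := (cA_mem hA).2
    rw [show pr (B := B) (a := a) p = b from hp] at h1 h2
    rw [h0] at h2
    simp only [sx, sx1] at h1 h2
    have e0 : a b 0 = -3 * xC (B := B) (a := a) p ^ 2 := by linear_combination h1
    have e1 : a b 1 = 2 * xC (B := B) (a := a) p ^ 3 := by
      rw [e0] at h2; linear_combination -h2
    rw [e0, e1]; ring)
  exact (sp_iff h.chd).2 ⟨ξ, k4⟩

end Vale.Agent.P269CW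

end
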