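import Vale.Agent.P269CW.Stab
import Vale.Agent.P269CK.Om

/-! The invariant differential of the Weierstrass family. -/

set_option linter.unusedSectionVars false
set_option linter.unusedVariables false

noncomputable section

namespace Vale.Agent.P269CW

open Set Filter Vale.Agent.P273.H183 Vale.Agent.P273.H948 Vale.Agent.P269CK
open Vale.Agent.P269C (nf FH Co Dr Df Om Bas Fr)
open Vale.Agent.P273SD (Mod Pc Pc_self ev_br)
open scoped Topology Classical

variable {L : Type} {m : ℕ}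

/-- An open part of a family given by an equation `y ^ 2 = s x`. -/
structure Cub (C : Fam L m) (O : Set C.X) (x y : C.X → ℂ) (s s1 : (Fin m → ℂ) → ℂ → ℂ) :
    Prop where
  chd : Chd C
  op : IsOpen O
  hx : ∀ p ∈ O, C.hol x p
  hy : ∀ p ∈ O, C.hol y p
  inj : ∀ p ∈ O, ∀ q ∈ O, C.π p = C.π q → x p = x q → y p = y q → p = q
  eq : ∀ p ∈ O, y p ^ 2 = s (C.π p) (x p)
  der : ∀ b t, HasStrictDerivAt (s b) (s1 b t) t

section

variable {C : Fam L m} {O : Set C.X} {x y z : C.X → ℂ} {s s1 : (Fin m → ℂ) → ℂ → ℂ} {p : C.X}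

theorem Cub.tx (h : Cub C O x y s s1) (hp : p ∈ O) : Tendsto x (nf C p) (𝓝 (x p)) :=
  FH.tendsto h.chd (fh_of_hol (h.hx p hp))

theorem Cub.ty (h : Cub C O x y s s1) (hp : p ∈ O) : Tendsto y (nf C p) (𝓝 (y p)) :=
  FH.tendsto h.chd (fh_of_hol (h.hy p hp))

theorem Cub.co_x (h : Cub C O x y s s1) (hp : p ∈ O) (h0 : y p ≠ 0) : Co C x p := by
  have h1 : ∀ᶠ q in nf C p, q ∈ O ∧ C.π q = C.π p ∧ ‖y q - y p‖ < ‖y p‖ := by
    filter_upwards [nf_le p (h.op.mem_nhds hp), ev_fib p,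
      (h.ty hp).eventually (Metric.ball_mem_nhds _ (norm_pos_iff.2 h0))] with q k1 k2 k3
    exact ⟨k1, k2, by rwa [← dist_eq_norm]⟩
  refine ⟨fh_of_hol (h.hx p hp), _, h1, fun q hq r hr e => ?_⟩
  have e1 : C.π q = C.π r := hq.2.1.trans hr.2.1.symm
  refine h.inj q hq.1 r hr.1 e1 e ?_
  have e2 : y q ^ 2 = y r ^ 2 := by rw [h.eq q hq.1, h.eq r hr.1, e1, e]
  refine (sq_eq_sq_iff_eq_or_eq_neg.1 e2).resolve_right fun e3 => ?_
  have e4 := norm_add_le (y q - y p) (y r - y p)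
  rw [show y q - y p + (y r - y p) = -(2 * y p) by rw [e3]; ring, norm_neg, norm_mul] at e4
  have e5 := hq.2.2
  have e6 := hr.2.2
  norm_num at e4
  linarith

theorem Cub.co_y (h : Cub C O x y s s1) (hp : p ∈ O) (h0 : s1 (C.π p) (x p) ≠ 0) : Co C y p := by
  have hl := ((h.der (C.π p) (x p)).hasStrictFDerivAt_equiv h0).eventually_left_inverse
  refine ⟨fh_of_hol (h.hy p hp), _, inter_mem (inter_mem (nf_le p (h.op.mem_nhds hp)) (ev_fib p))
    ((h.tx hp).eventually hl), fun q hq r hr e => ?_⟩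
  have e1 : C.π q = C.π p := hq.1.2
  have e2 : C.π r = C.π p := hr.1.2
  refine h.inj q hq.1.1 r hr.1.1 (e1.trans e2.symm) ?_ e
  have e3 : s (C.π p) (x q) = s (C.π p) (x r) := by
    rw [← e1, ← h.eq q hq.1.1, e1, ← e2, ← h.eq r hr.1.1, e]
  exact hq.2.symm.trans ((congrArg _ e3).trans hr.2)

theorem Cub.rel (h : Cub C O x y s s1) (hp : p ∈ O) (hz : Co C z p) :
    2 * y p * dd C y z p = s1 (C.π p) (x p) * dd C x z p := by
  have h1 := Dr.comp (dr_dd h.chd (fh_of_hol (h.hy p hp)) hz) (hasDerivAt_pow 2 (y p)) (h.ty hp)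
  have h2 := Dr.comp (dr_dd h.chd (fh_of_hol (h.hx p hp)) hz) (h.der (C.π p) (x p)).hasDerivAt
    (h.tx hp)
  have h3 := Dr.unique h.chd hz h1 (Dr.congr h2 ?_ EventuallyEq.rfl)
  · simpa using h3
  · filter_upwards [nf_le p (h.op.mem_nhds hp), ev_fib p] with q k1 k2
    rw [h.eq q k1, k2]

end

variable {B : Set (Fin m → ℂ)} {a : (Fin m → ℂ) → Fin 2 → ℂ} {hne : B.Nonempty}

/-- The standing assumptions. -/
structure Ok (B : Set (Fin m → ℂ)) (a : (Fin m → ℂ) → Fin 2 → ℂ) : Prop where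
  op : IsOpen B
  an : ∀ b ∈ B, AnalyticAt ℂ a b
  ne : ∀ b ∈ B, a b ≠ 0

theorem Ok.chd (h : Ok B a) : Chd (W L B a hne) := fun P => by
  obtain ⟨U, x, y, t, h1, h2⟩ := W_chart h.op h.an h.ne P
  exact ⟨U, x, y, t, h1, IsChart.isModel (hol := fun P f => hlo f P) h2⟩

theorem strict_sx (a : Fin 2 → ℂ) (x : ℂ) : HasStrictDerivAt (sx a) (sx1 a x) x := by
  have h : AnalyticAt ℂ (sx a) x := by unfold sx; fun_prop
  have h1 := h.hasStrictDerivAt
  rwa [(hasDerivAt_sx a x).deriv] at h1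

theorem strict_sw (a : Fin 2 → ℂ) (x : ℂ) : HasStrictDerivAt (sw a) (sw1 a x) x := by
  have h : AnalyticAt ℂ (sw a) x := by unfold sw; fun_prop
  have h1 := h.hasStrictDerivAt
  rwa [(hasDerivAt_sw a x).deriv] at h1

theorem Ok.cubA (h : Ok B a) : Cub (W L B a hne) (aff : Set (tot B a)) xC yC
    (fun b => sx (a b)) fun b => sx1 (a b) :=
  ⟨h.chd, isOpen_aff, fun p hp => P273.H724.amb_hol_fst (ambA (L := L) (hne := hne)) hp,
    fun p hp => P273.H724.amb_hol_snd (ambA (L := L) (hne := hne)) hp,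
    fun p hp q hq e1 e2 e3 => isAmb_aff.inj hp hq (Prod.ext e1 (Prod.ext e2 e3)),
    fun p hp => (cA_mem hp).2, fun b t => strict_sx _ _⟩

theorem Ok.cubF (h : Ok B a) : Cub (W L B a hne) (far : Set (tot B a)) wC uC
    (fun b => sw (a b)) fun b => sw1 (a b) :=
  ⟨h.chd, isOpen_far, fun p hp => P273.H724.amb_hol_fst (ambF (L := L) (hne := hne)) hp,
    fun p hp => P273.H724.amb_hol_snd (ambF (L := L) (hne := hne)) hp,
    fun p hp q hq e1 e2 e3 => isAmb_far.inj hp hq (Prod.ext e1 (Prod.ext e2 e3)),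
    fun p hp => (cF_mem hp).2, fun b t => strict_sw _ _⟩

/-- The differential `dx / 2y`. -/
def om (L : Type) (B : Set (Fin m → ℂ)) (a : (Fin m → ℂ) → Fin 2 → ℂ) (hne : B.Nonempty) :
    Df (W L B a hne) := fun z (p : tot B a) =>
  if p ∈ (aff : Set (tot B a)) then
    (if yC p ≠ 0 then (2 * yC p)⁻¹ * dd (W L B a hne) xC z p
      else (sx1 (a (pr p)) (xC p))⁻¹ * dd (W L B a hne) yC z p)
  else -dd (W L B a hne) uC z p

variable {z : tot B a → ℂ} {p : tot B a}

theorem om_x (hp : p ∈ (aff : Set (tot B a))) (h0 : yC p ≠ 0) :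
    om L B a hne z p = (2 * yC p)⁻¹ * dd (W L B a hne) xC z p := by
  unfold om
  rw [if_pos hp, if_pos h0]

theorem Ok.om_y (h : Ok B a) (hp : p ∈ (aff : Set (tot B a)))
    (h1 : sx1 (a (pr p)) (xC p) ≠ 0) (hz : Co (W L B a hne) z p) :
    om L B a hne z p = (sx1 (a (pr p)) (xC p))⁻¹ * dd (W L B a hne) yC z p := by
  by_cases h0 : yC p ≠ 0
  · have h2 : 2 * yC p * dd (W L B a hne) yC z p =
        sx1 (a (pr p)) (xC p) * dd (W L B a hne) xC z p := (h.cubA (L := L)).rel hp hz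
    rw [om_x hp h0]
    field_simp
    linear_combination -h2
  · unfold om
    rw [if_pos hp, if_neg h0]

theorem Ok.om_u (h : Ok B a) (hp : p ∈ (far : Set (tot B a)))
    (h0 : p ∈ (aff : Set (tot B a)) → yC p ≠ 0)
    (h1 : sw1 (a (pr p)) (wC p) ≠ 0) (hz : Co (W L B a hne) z p) :
    om L B a hne z p = -(sw1 (a (pr p)) (wC p))⁻¹ * dd (W L B a hne) uC z p := by
  by_cases hA : p ∈ (aff : Set (tot B a))
  · have h2 : 2 * uC p * dd (W L B a hne) uC z p =
        sw1 (a (pr p)) (wC p) * dd (W L B a hne) wC z p := (h.cubF (L := L)).rel hp hz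
    have hx : xC p ≠ 0 := (far_iff hA).1 hp
    have hC := h.chd (L := L) (hne := hne)
    have h3 := Dr.comp (dr_dd hC (fh_of_hol ((h.cubA (L := L)).hx p hA)) hz) (hasDerivAt_inv hx)
      ((h.cubA (L := L)).tx hA)
    have h4 : dd (W L B a hne) wC z p = -(xC p ^ 2)⁻¹ * dd (W L B a hne) xC z p := by
      refine Dr.dd_eq hC hz (Dr.congr h3 ?_ EventuallyEq.rfl)
      filter_upwards [nf_le (C := W L B a hne) p (isOpen_aff.mem_nhds hA),
        nf_le (C := W L B a hne) p (isOpen_far.mem_nhds hp)] with q k1 k2 using wC_eq k1 k2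
    rw [h4, uC_eq hA hp] at h2
    rw [om_x hA (h0 hA)]
    have h5 := h0 hA
    field_simp at h2 ⊢
    linear_combination h2
  · unfold om
    rw [if_neg hA, wC_eq_zero hA]
    simp [sw1]

theorem Ok.hol_a (h : Ok B a) {x : tot B a → ℂ} (hx : (W L B a hne).hol x p)
    {F : (Fin 2 → ℂ) × ℂ → ℂ} (hF : ContDiffAt ℂ ⊤ F (a (pr p), x p)) :
    (W L B a hne).hol (fun q : tot B a => F (a (pr q), x q)) p :=
  hol_an (h.chd (L := L) (hne := hne)) hx hx (F := fun w => F (a w.1, w.2.1))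
    (AnalyticAt.comp_of_eq (g := F) hF.analyticAt ((AnalyticAt.comp_of_eq (g := a)
      (f := fun w : Amb m => w.1) (x := (pr p, x p, x p)) (h.an _ (pr_mem p))
      analyticAt_fst rfl).prod (an_u _)) rfl)

/-- The local form of the differential at a smooth point. -/
theorem Ok.loc (h : Ok B a)
    (hs : p ∈ (aff : Set (tot B a)) → yC p = 0 → sx1 (a (pr p)) (xC p) ≠ 0) :
    ∃ κ ξ : tot B a → ℂ, (W L B a hne).hol κ p ∧ κ p ≠ 0 ∧ (W L B a hne).hol ξ p ∧
      Co (W L B a hne) ξ p ∧ ∀ᶠ q in 𝓝 p, ∀ z, Co (W L B a hne) z q →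
        om L B a hne z q = κ q * dd (W L B a hne) ξ z q := by
  have hC := h.chd (L := L) (hne := hne)
  have cA := h.cubA (L := L) (hne := hne)
  have cF := h.cubF (L := L) (hne := hne)
  by_cases hA : p ∈ (aff : Set (tot B a))
  · by_cases h0 : yC p = 0
    · have h1 := hs hA h0
      have h2 : (W L B a hne).hol (fun q : tot B a => sx1 (a (pr q)) (xC q)) p :=
        h.hol_a (cA.hx p hA) (F := fun w => sx1 w.1 w.2) (by unfold sx1; fun_prop)
      refine ⟨fun q => (sx1 (a (pr q)) (xC q))⁻¹, yC,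
        hol_comp hC h2 (F := fun s => s⁻¹) (analyticAt_id.inv h1), inv_ne_zero h1, cA.hy p hA,
        cA.co_y hA h1, ?_⟩
      filter_upwards [isOpen_aff.mem_nhds hA, (hol_cont hC h2).eventually_ne h1] with q k1 k2 z hz
      exact h.om_y k1 k2 hz
    · refine ⟨fun q => (2 * yC q)⁻¹, xC, hol_comp hC (cA.hy p hA) (F := fun s => (2 * s)⁻¹)
        ((analyticAt_const.mul analyticAt_id).inv (mul_ne_zero two_ne_zero h0)),
        inv_ne_zero (mul_ne_zero two_ne_zero h0), cA.hx p hA, cA.co_x hA h0, ?_⟩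
      filter_upwards [isOpen_aff.mem_nhds hA, (hol_cont hC (cA.hy p hA)).eventually_ne h0]
        with q k1 k2 z hz
      exact om_x k1 k2
  · have hF := (mem_aff_or_far p).resolve_left hA
    have h1 : sw1 (a (pr p)) (wC p) ≠ 0 := by rw [wC_eq_zero hA]; simp [sw1]
    have h2 : (W L B a hne).hol (fun q : tot B a => sw1 (a (pr q)) (wC q)) p :=
      h.hol_a (cF.hx p hF) (F := fun w => sw1 w.1 w.2) (by unfold sw1; fun_prop)
    have h3 : (W L B a hne).hol (fun q : tot B a =>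
        1 + a (pr q) 0 * wC q ^ 2 + a (pr q) 1 * wC q ^ 3) p :=
      h.hol_a (cF.hx p hF) (F := fun w => 1 + w.1 0 * w.2 ^ 2 + w.1 1 * w.2 ^ 3) (by fun_prop)
    refine ⟨fun q => -(sw1 (a (pr q)) (wC q))⁻¹, uC,
      hol_comp hC h2 (F := fun s => -s⁻¹) (analyticAt_id.inv h1).neg,
      neg_ne_zero.2 (inv_ne_zero h1), cF.hy p hF, cF.co_y hF h1, ?_⟩
    filter_upwards [isOpen_far.mem_nhds hF, (hol_cont hC h2).eventually_ne h1,
      (hol_cont hC h3).eventually_ne (y := 0) (by simp [wC_eq_zero hA])] with q k1 k2 k3 z hz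
    refine h.om_u k1 (fun k4 k5 => ?_) k2 hz
    have k6 : uC q ^ 2 = sw (a (pr q)) (wC q) := (cF_mem k1).2
    rw [uC_eq k4 k1, k5] at k6
    refine mul_ne_zero ((aff_iff k1).1 k4) k3 ?_
    simp only [sw] at k6
    linear_combination -k6

end Vale.Agent.P269CW

end
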