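import Vale.Agent.P273.H183.Amb

/-! The Weierstrass family `y ^ 2 = x ^ 3 + a₀ x + a₁`: total space and coordinates. -/

noncomputable section

namespace Vale.Agent.P269CW

open Set Filter
open scoped Topology ComplexConjugate
open Vale.Agent.P273.H183 (Fam IsChart IsAmb)

/-- The cubic with coefficients `a`. -/
def sx (a : Fin 2 → ℂ) (x : ℂ) : ℂ := x ^ 3 + a 0 * x + a 1

/-- The reversed polynomial (as a quartic). -/
def sw (a : Fin 2 → ℂ) (w : ℂ) : ℂ := w + a 0 * w ^ 3 + a 1 * w ^ 4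

/-- The derivative of `sx`. -/
def sx1 (a : Fin 2 → ℂ) (x : ℂ) : ℂ := 3 * x ^ 2 + a 0

/-- The derivative of `sw`. -/
def sw1 (a : Fin 2 → ℂ) (w : ℂ) : ℂ := 1 + 3 * a 0 * w ^ 2 + 4 * a 1 * w ^ 3

/-- The second divided difference of `sx`. -/
def hx (c x : ℂ) : ℂ := x + 2 * c

theorem sx_eq (a : Fin 2 → ℂ) (c x : ℂ) :
    sx a x = sx a c + sx1 a c * (x - c) + hx c x * (x - c) ^ 2 := by
  simp only [sx, sx1, hx]; ring

theorem sw_eq (a : Fin 2 → ℂ) {x : ℂ} (hx : x ≠ 0) : sw a x⁻¹ = sx a x / x ^ 4 := by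
  simp only [sx, sw]; field_simp

theorem sx_inv (a : Fin 2 → ℂ) {w : ℂ} (hw : w ≠ 0) : sx a w⁻¹ = sw a w / w ^ 4 := by
  simp only [sx, sw]; field_simp

/-- A cubic with coefficients not both zero has no triple root. -/
theorem no_triple {a : Fin 2 → ℂ} (ha : a ≠ 0) {x : ℂ} (h0 : sx a x = 0) (h1 : sx1 a x = 0) :
    hx x x ≠ 0 := by
  intro h2
  have hx0 : x = 0 := by
    simp only [hx] at h2
    linear_combination h2 / 3
  subst hx0
  apply ha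
  simp only [sx, sx1] at h0 h1
  funext i
  fin_cases i
  · simpa using h1
  · simpa using h0

theorem nn (x : ℂ) : 1 + x * conj x ≠ 0 := by
  rw [Complex.mul_conj]
  have h := Complex.normSq_nonneg x
  intro e
  have := congrArg Complex.re e
  simp at this
  linarith

theorem nn' (x : ℂ) : 1 + conj x * x ≠ 0 := by rw [mul_comm]; exact nn x

variable {m : ℕ}

/-- The embedding of the affine part. -/
def emb (z : (Fin m → ℂ) × ℂ × ℂ) : (Fin m → ℂ) × ℂ × ℂ × ℂ × ℂ :=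
  (z.1, 1 / (1 + z.2.1 * conj z.2.1), conj z.2.1 / (1 + z.2.1 * conj z.2.1),
    z.2.2 / (1 + z.2.1 * conj z.2.1) ^ 2,
    z.2.2 * conj z.2.1 ^ 2 / (1 + z.2.1 * conj z.2.1) ^ 2)

/-- The embedding of the part near infinity. -/
def emb' (z : (Fin m → ℂ) × ℂ × ℂ) : (Fin m → ℂ) × ℂ × ℂ × ℂ × ℂ :=
  (z.1, z.2.1 * conj z.2.1 / (1 + z.2.1 * conj z.2.1), z.2.1 / (1 + z.2.1 * conj z.2.1),
    z.2.2 * conj z.2.1 ^ 2 / (1 + z.2.1 * conj z.2.1) ^ 2,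
    z.2.2 / (1 + z.2.1 * conj z.2.1) ^ 2)

/-- Affine coordinates. -/
def crd (P : (Fin m → ℂ) × ℂ × ℂ × ℂ × ℂ) : (Fin m → ℂ) × ℂ × ℂ :=
  (P.1, conj (P.2.2.1 / P.2.1), P.2.2.2.1 / P.2.1 ^ 2)

/-- Coordinates near infinity. -/
def crd' (P : (Fin m → ℂ) × ℂ × ℂ × ℂ × ℂ) : (Fin m → ℂ) × ℂ × ℂ :=
  (P.1, P.2.2.1 / (1 - P.2.1), P.2.2.2.2 / (1 - P.2.1) ^ 2)

theorem continuous_emb : Continuous (emb : (Fin m → ℂ) × ℂ × ℂ → _) := by
  have h : ∀ z : (Fin m → ℂ) × ℂ × ℂ, 1 + z.2.1 * conj z.2.1 ≠ 0 := fun z => nn _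
  have h3 : ∀ z : (Fin m → ℂ) × ℂ × ℂ, (1 + z.2.1 * conj z.2.1) ^ 2 ≠ 0 := fun z => pow_ne_zero 2 (nn _)
  unfold emb
  fun_prop (disch := assumption)

theorem continuous_emb' : Continuous (emb' : (Fin m → ℂ) × ℂ × ℂ → _) := by
  have h : ∀ z : (Fin m → ℂ) × ℂ × ℂ, 1 + z.2.1 * conj z.2.1 ≠ 0 := fun z => nn _
  have h3 : ∀ z : (Fin m → ℂ) × ℂ × ℂ, (1 + z.2.1 * conj z.2.1) ^ 2 ≠ 0 := fun z => pow_ne_zero 2 (nn _)
  unfold emb'
  fun_prop (disch := assumption)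

theorem emb_ne (z : (Fin m → ℂ) × ℂ × ℂ) : (emb z).2.1 ≠ 0 := by
  simp only [emb]; exact one_div_ne_zero (nn _)

theorem one_sub_emb' (z : (Fin m → ℂ) × ℂ × ℂ) :
    1 - (emb' z).2.1 = 1 / (1 + z.2.1 * conj z.2.1) := by
  simp only [emb']
  have := nn z.2.1
  field_simp
  ring

theorem emb'_ne (z : (Fin m → ℂ) × ℂ × ℂ) : (emb' z).2.1 ≠ 1 := by
  have h := one_sub_emb' z
  intro e
  rw [e, sub_self] at h
  exact one_div_ne_zero (nn _) h.symm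

theorem crd_emb (z : (Fin m → ℂ) × ℂ × ℂ) : crd (emb z) = z := by
  have h := nn z.2.1
  simp only [crd, emb]
  refine Prod.ext rfl (Prod.ext ?_ ?_)
  · simp only
    rw [div_div_div_cancel_right₀ h, div_one, Complex.conj_conj]
  · simp only
    field_simp

theorem crd'_emb' (z : (Fin m → ℂ) × ℂ × ℂ) : crd' (emb' z) = z := by
  have h := nn z.2.1
  have h1 := one_sub_emb' z
  simp only [crd', h1]
  simp only [emb']
  refine Prod.ext rfl (Prod.ext ?_ ?_)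
  · simp only
    field_simp
  · simp only
    field_simp

/-- The transition map. -/
def tr (z : (Fin m → ℂ) × ℂ × ℂ) : (Fin m → ℂ) × ℂ × ℂ := (z.1, z.2.1⁻¹, z.2.2 / z.2.1 ^ 2)

theorem tr_tr {z : (Fin m → ℂ) × ℂ × ℂ} (hz : z.2.1 ≠ 0) : tr (tr z) = z := by
  simp only [tr]
  refine Prod.ext rfl (Prod.ext ?_ ?_)
  · simp
  · simp only
    field_simp

theorem emb'_tr {z : (Fin m → ℂ) × ℂ × ℂ} (hz : z.2.1 ≠ 0) : emb' (tr z) = emb z := by
  have h := nn z.2.1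
  have hc : conj z.2.1 ≠ 0 := (map_ne_zero _).2 hz
  have e : 1 + z.2.1⁻¹ * (conj z.2.1)⁻¹ = (1 + z.2.1 * conj z.2.1) / (z.2.1 * conj z.2.1) := by
    field_simp; ring
  simp only [emb', emb, tr, map_inv₀, e]
  refine Prod.ext rfl (Prod.ext ?_ (Prod.ext ?_ (Prod.ext ?_ ?_)))
  · simp only; field_simp
  · simp only; field_simp
  · simp only; field_simp
  · simp only; field_simp

theorem emb_tr {z : (Fin m → ℂ) × ℂ × ℂ} (hz : z.2.1 ≠ 0) : emb (tr z) = emb' z := by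
  have h1 : (tr z).2.1 ≠ 0 := inv_ne_zero hz
  rw [← emb'_tr h1, tr_tr hz]

theorem analyticAt_tr {z : (Fin m → ℂ) × ℂ × ℂ} (hz : z.2.1 ≠ 0) : AnalyticAt ℂ tr z := by
  have h3 : z.2.1 ^ 2 ≠ 0 := pow_ne_zero 2 hz
  have h1 : AnalyticAt ℂ (fun z : (Fin m → ℂ) × ℂ × ℂ => z.2.1) z :=
    AnalyticAt.comp analyticAt_fst analyticAt_snd
  have h2 : AnalyticAt ℂ (fun z : (Fin m → ℂ) × ℂ × ℂ => z.2.2) z :=
    AnalyticAt.comp analyticAt_snd analyticAt_snd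
  exact analyticAt_fst.prod ((h1.inv hz).prod (h2.div (h1.pow 2) h3))

/-- The affine curves. -/
def Zaff (B : Set (Fin m → ℂ)) (a : (Fin m → ℂ) → Fin 2 → ℂ) : Set ((Fin m → ℂ) × ℂ × ℂ) :=
  {z | z.1 ∈ B ∧ z.2.2 ^ 2 = sx (a z.1) z.2.1}

/-- The curves near infinity. -/
def Zfar (B : Set (Fin m → ℂ)) (a : (Fin m → ℂ) → Fin 2 → ℂ) : Set ((Fin m → ℂ) × ℂ × ℂ) :=
  {z | z.1 ∈ B ∧ z.2.2 ^ 2 = sw (a z.1) z.2.1}

theorem tr_aff {B : Set (Fin m → ℂ)} {a : (Fin m → ℂ) → Fin 2 → ℂ} {z : (Fin m → ℂ) × ℂ × ℂ}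
    (hz : z.2.1 ≠ 0) (h : z ∈ Zaff B a) : tr z ∈ Zfar B a := by
  refine ⟨h.1, ?_⟩
  simp only [tr]
  rw [sw_eq _ hz, ← h.2]
  ring

theorem tr_far {B : Set (Fin m → ℂ)} {a : (Fin m → ℂ) → Fin 2 → ℂ} {z : (Fin m → ℂ) × ℂ × ℂ}
    (hz : z.2.1 ≠ 0) (h : z ∈ Zfar B a) : tr z ∈ Zaff B a := by
  refine ⟨h.1, ?_⟩
  simp only [tr]
  rw [sx_inv _ hz, ← h.2]
  ring

/-- The total space. -/
def tot (B : Set (Fin m → ℂ)) (a : (Fin m → ℂ) → Fin 2 → ℂ) : Set ((Fin m → ℂ) × ℂ × ℂ × ℂ × ℂ) :=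
  emb '' Zaff B a ∪ emb' '' Zfar B a

variable {B : Set (Fin m → ℂ)} {a : (Fin m → ℂ) → Fin 2 → ℂ}

/-- Affine coordinates on the total space. -/
def cA (P : tot B a) : (Fin m → ℂ) × ℂ × ℂ := crd P.1

/-- Coordinates near infinity on the total space. -/
def cF (P : tot B a) : (Fin m → ℂ) × ℂ × ℂ := crd' P.1

/-- The coordinate `x`. -/
def xC (P : tot B a) : ℂ := (cA P).2.1
/-- The coordinate `y`. -/
def yC (P : tot B a) : ℂ := (cA P).2.2
/-- The coordinate `w = 1/x`. -/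
def wC (P : tot B a) : ℂ := (cF P).2.1
/-- The coordinate `u = y/x ^ 2`. -/
def uC (P : tot B a) : ℂ := (cF P).2.2

/-- The projection. -/
def pr (P : tot B a) : Fin m → ℂ := P.1.1

/-- The affine part. -/
def aff : Set (tot B a) := {P | P.1.2.1 ≠ 0}

/-- The part where `x ≠ 0`. -/
def far : Set (tot B a) := {P | P.1.2.1 ≠ 1}

theorem cA_eq (P : tot B a) : cA P = (pr P, xC P, yC P) := rfl
theorem cF_eq (P : tot B a) : cF P = (pr P, wC P, uC P) := rfl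

theorem isOpen_aff : IsOpen (aff : Set (tot B a)) :=
  isOpen_ne_fun (continuous_subtype_val.snd.fst) continuous_const

theorem isOpen_far : IsOpen (far : Set (tot B a)) :=
  isOpen_ne_fun (continuous_subtype_val.snd.fst) continuous_const

theorem continuous_pr : Continuous (pr : tot B a → _) := continuous_subtype_val.fst

/-- The point with affine coordinates `z`. -/
def ptA (z : Zaff B a) : tot B a := ⟨emb z.1, Or.inl ⟨z.1, z.2, rfl⟩⟩
/-- The point with coordinates `z` near infinity. -/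
def ptF (z : Zfar B a) : tot B a := ⟨emb' z.1, Or.inr ⟨z.1, z.2, rfl⟩⟩

theorem ptA_mem (z : Zaff B a) : ptA z ∈ (aff : Set (tot B a)) := emb_ne _
theorem ptF_mem (z : Zfar B a) : ptF z ∈ (far : Set (tot B a)) := emb'_ne _

theorem cA_ptA (z : Zaff B a) : cA (ptA z) = z.1 := crd_emb _
theorem cF_ptF (z : Zfar B a) : cF (ptF z) = z.1 := crd'_emb' _

theorem exists_aff {P : tot B a} (hP : P ∈ (aff : Set (tot B a))) : ∃ z : Zaff B a, ptA z = P := by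
  obtain ⟨P, ⟨z, hz, rfl⟩ | ⟨z, hz, rfl⟩⟩ := P
  · exact ⟨⟨z, hz⟩, rfl⟩
  · have h0 : z.2.1 ≠ 0 := by
      intro e
      apply hP
      simp [emb', e]
    exact ⟨⟨tr z, tr_far h0 hz⟩, Subtype.ext (emb_tr h0)⟩

theorem exists_far {P : tot B a} (hP : P ∈ (far : Set (tot B a))) : ∃ z : Zfar B a, ptF z = P := by
  obtain ⟨P, ⟨z, hz, rfl⟩ | ⟨z, hz, rfl⟩⟩ := P
  · have h0 : z.2.1 ≠ 0 := by
      intro e
      apply hP
      simp [emb, e]
    exact ⟨⟨tr z, tr_aff h0 hz⟩, Subtype.ext (emb'_tr h0)⟩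
  · exact ⟨⟨z, hz⟩, rfl⟩

theorem cA_mem {P : tot B a} (hP : P ∈ (aff : Set (tot B a))) : cA P ∈ Zaff B a := by
  obtain ⟨z, rfl⟩ := exists_aff hP
  rw [cA_ptA]; exact z.2

theorem cF_mem {P : tot B a} (hP : P ∈ (far : Set (tot B a))) : cF P ∈ Zfar B a := by
  obtain ⟨z, rfl⟩ := exists_far hP
  rw [cF_ptF]; exact z.2

theorem emb_cA {P : tot B a} (hP : P ∈ (aff : Set (tot B a))) : emb (cA P) = P.1 := by
  obtain ⟨z, rfl⟩ := exists_aff hP
  rw [cA_ptA]; rfl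

theorem emb'_cF {P : tot B a} (hP : P ∈ (far : Set (tot B a))) : emb' (cF P) = P.1 := by
  obtain ⟨z, rfl⟩ := exists_far hP
  rw [cF_ptF]; rfl

theorem far_iff {P : tot B a} (hP : P ∈ (aff : Set (tot B a))) :
    P ∈ (far : Set (tot B a)) ↔ xC P ≠ 0 := by
  obtain ⟨z, rfl⟩ := exists_aff hP
  rw [xC, cA_ptA]
  change (1 / (1 + z.1.2.1 * conj z.1.2.1)) ≠ 1 ↔ _
  have h := nn z.1.2.1
  rw [not_iff_not, div_eq_one_iff_eq h]
  constructor
  · intro e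
    have : z.1.2.1 * conj z.1.2.1 = 0 := by linear_combination -e
    rcases mul_eq_zero.1 this with h | h
    · exact h
    · exact (map_eq_zero _).1 h
  · intro e
    rw [e]; simp

theorem aff_iff {P : tot B a} (hP : P ∈ (far : Set (tot B a))) :
    P ∈ (aff : Set (tot B a)) ↔ wC P ≠ 0 := by
  obtain ⟨z, rfl⟩ := exists_far hP
  rw [wC, cF_ptF]
  change (z.1.2.1 * conj z.1.2.1 / (1 + z.1.2.1 * conj z.1.2.1)) ≠ 0 ↔ _
  have h := nn z.1.2.1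
  simp [h]

theorem mem_aff_or_far (P : tot B a) : P ∈ (aff : Set (tot B a)) ∨ P ∈ (far : Set (tot B a)) := by
  by_cases h : P.1.2.1 = 0
  · right
    change P.1.2.1 ≠ 1
    rw [h]; exact zero_ne_one
  · exact Or.inl h

theorem cF_eq_tr {P : tot B a} (hP : P ∈ (aff : Set (tot B a))) (hP' : P ∈ (far : Set (tot B a))) :
    cF P = tr (cA P) := by
  have h0 := (far_iff hP).1 hP'
  obtain ⟨z, rfl⟩ := exists_aff hP
  have h0' : z.1.2.1 ≠ 0 := by rwa [xC, cA_ptA] at h0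
  have : ptA z = ptF ⟨tr z.1, tr_aff h0' z.2⟩ := Subtype.ext (emb'_tr h0').symm
  rw [cA_ptA, this, cF_ptF]

theorem cA_eq_tr {P : tot B a} (hP : P ∈ (aff : Set (tot B a))) (hP' : P ∈ (far : Set (tot B a))) :
    cA P = tr (cF P) := by
  have h0 := (far_iff hP).1 hP'
  rw [cF_eq_tr hP hP', tr_tr h0]

theorem wC_eq {P : tot B a} (hP : P ∈ (aff : Set (tot B a))) (hP' : P ∈ (far : Set (tot B a))) :
    wC P = (xC P)⁻¹ := by rw [wC, cF_eq_tr hP hP']; rfl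

theorem uC_eq {P : tot B a} (hP : P ∈ (aff : Set (tot B a))) (hP' : P ∈ (far : Set (tot B a))) :
    uC P = yC P / xC P ^ 2 := by rw [uC, cF_eq_tr hP hP']; rfl

end Vale.Agent.P269CW

end
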