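import Vale.Agent.P269CW.Met
import Vale.Agent.P269CI.Ind

/-! Row V11: the integrals of `ψ` and `λ` over the stack of one pointed curves of genus one. -/

set_option linter.unusedSectionVars false
set_option linter.unusedVariables false

noncomputable section

namespace Vale.Agent.P269CW

open Set Filter MeasureTheory Vale.Agent.P273.H183 Vale.Agent.P272.K
open Vale.Agent.P269C hiding pr dd
open Vale.Agent.P269CK hiding dd
open scoped Topology Classical Matrix ComplexOrder ContDiff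

/-- The two slices of the punctured plane. -/
def sa : Bool → Cm 1 → Cm 2
  | true => fun t => ![t 0, 1]
  | false => fun t => ![1, t 0]

/-- The weights on the slices. -/
def wt (R : ℝ) : Bool → Cm 1 → ℝ
  | true => w1 R
  | false => w2 R

/-- The families over the slices. -/
def Sl (i : Bool) : Fam (Fin 1) 1 := W (Fin 1) univ (sa i) univ_nonempty

theorem ok_sa (i : Bool) : Ok univ (sa i) := by
  have h0 : ∀ b : Cm 1, AnalyticAt ℂ (fun t : Cm 1 => t 0) b := fun b =>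
    (ContinuousLinearMap.proj (R := ℂ) (φ := fun _ : Fin 1 => ℂ) 0).analyticAt b
  refine ⟨isOpen_univ, fun b _ => AnalyticAt.pi fun j => ?_, fun b _ e => ?_⟩
  · cases i <;> fin_cases j
    exacts [analyticAt_const, h0 b, h0 b, analyticAt_const]
  · cases i
    · exact one_ne_zero (congrFun e 0)
    · exact one_ne_zero (congrFun e 1)

theorem ok_W2 : Ok ({0}ᶜ : Set (Cm 2)) id :=
  ⟨isOpen_compl_singleton, fun _ _ => analyticAt_id, fun _ h => h⟩

theorem ae_poly (n : ℕ) {c d : ℂ} (hc : c ≠ 0) (hn : n ≠ 0) :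
    ∀ᵐ t : Cm 1, c * t 0 ^ n + d ≠ 0 := by
  have h1 : {x : ℂ | c * x ^ n + d = 0}.Finite := by
    refine ((Polynomial.nthRoots n (-d / c)).finite_toSet).subset fun x hx => ?_
    refine (Polynomial.mem_nthRoots (Nat.pos_of_ne_zero hn)).2 ?_
    have h0 : c * x ^ n + d = 0 := hx
    rw [eq_div_iff hc]
    linear_combination h0
  have h2 : {t : Cm 1 | c * t 0 ^ n + d = 0}.Finite :=
    Finite.preimage (f := fun t : Cm 1 => t 0)
      (fun t _ t' _ e => funext fun j => by rw [Subsingleton.elim j 0]; exact e) h1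
  exact ae_iff.2 (by simpa only [not_not] using h2.measure_zero volume)

theorem ae_sm (i : Bool) : ∀ᵐ y, Sm (Sl i) y := by
  cases i
  · filter_upwards [ae_poly 2 (c := 27) (d := 4) (by norm_num) two_ne_zero] with y hy
    exact (ok_sa false).sm (by simpa [sa, add_comm] using hy)
  · filter_upwards [ae_poly 3 (c := 4) (d := 27) (by norm_num) three_ne_zero] with y hy
    exact (ok_sa true).sm (by simpa [sa] using hy)

theorem dcv (dc : DC) (nul : NUL) (ta : TAU) (gdc : GDC) (cls : CLS) (aut : AUT) (scl : SCL)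
    (wgt : WGT) (A : Atlas 1 1 (Fin 1)) (β : Bool → Cm 1 → Po 1) (β' : Fin A.k → Cm 1 → Po 1)
    (h1 : ∀ b, ∀ x ∈ (A.C b).B, Gd x (β' b))
    (h2 : ∀ i b φ Φ y, Sm (Sl i) y → (∀ᶠ x in 𝓝 y, Mor (Sl i) (A.C b) φ Φ x) →
      β i y = pb (jac φ y) (β' b (φ y))) {R : ℝ} (hR : 0 < R) :
    (∫ t, (w1 R t : ℂ) * tau (β true t)) + ∫ t, (w2 R t : ℂ) * tau (β false t) = A.int β' := by
  have st : ∀ i, (Sl i).IsStable := fun i => (ok_sa i).st
  obtain ⟨w1c, w2c, ws⟩ := wgt R hR
  have key := dc 1 Bool (Fin A.k) (wt R) A.ρ (fun i y => tau (β i y)) (fun b x => tau (β' b x))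
    (fun i b y x => (Iso (Sl i) y (A.C b) x).ncard) (fun _ => ∅) (fun i => ?_) (fun b => ?_)
    (fun i => ?_) (fun b => ?_) fun i b y₀ _ => ?_
  · rw [Fintype.sum_bool] at key
    exact key
  · cases i
    exacts [⟨w2c.1, w2c.2, measure_empty⟩, ⟨w1c.1, w1c.2, measure_empty⟩]
  · exact ⟨(A.sm b).1.continuous, (A.sm b).2.1, fun x hx =>
      (ta.sm _ x ∞ (gdc 1 x _ (h1 b x ((A.sm b).2.2 hx))).sm).continuousAt⟩
  · exact Eventually.of_forall fun y _ =>
      A.one 1 (Sl i) (st i) y (mem_univ y) ⟨_, (ok_sa i).bas (mem_univ y)⟩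
  · filter_upwards [nul _ _ _ (A.kur b)] with x hx h0
    have hB : x ∈ (A.C b).B := (A.sm b).2.2 (subset_tsupport _ h0)
    have hC := (A.kur b).1
    obtain ⟨e, he⟩ := A.fr b x hB
    obtain ⟨a, ha, hd, Θ, hΘ⟩ := cls 1 (A.C b) hC x hB
      (fun p hp => (sp_iff (chd hC)).1 (hx hB p hp)) ⟨e, he.self_of_nhds.1⟩
    obtain ⟨Ψ, rfl⟩ := iso_ext (fib_ne hC hB) Θ
    have hW : W2.IsStable := ok_W2.st
    have hN : ∀ i y, (Iso (Sl i) y (A.C b) x).ncard =
        {s : ℂ | s ≠ 0 ∧ sa i y 0 = s ^ 4 * a 0 ∧ sa i y 1 = s ^ 6 * a 1}.ncard := fun i y => by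
      rw [card_post (fib_ne (st i) (mem_univ y)) hC hW hB hΘ, iso_card (st i) hW (mem_univ y) ha]
      exact iso_cnt aut scl ok_W2 (ok_sa i) ha (mem_univ y) hd
    rw [Fintype.sum_bool]
    simp only [hN, compl_empty, finsum_mem_univ]
    exact ws a ha
  · obtain ⟨k, φ, Φ, h⟩ := kur_cnt (A.kur b) (st i) (mem_univ y₀) (A.sm b).2.2 (A.sm b).2.1
    refine ⟨k, φ, fun j => (h.self_of_nhds.1 j).2.1, h.mono fun y hy x hx => ?_, fun j _ => ?_⟩
    · simpa using (hy.2 x hx).2 fun _ _ => True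
    · filter_upwards [mem_inf_of_left h.eventually_nhds, mem_inf_of_right (ae_sm i)] with y k1 k2
      rw [h2 i b (φ j) (Φ j) y k2 (Eventually.mono k1 fun x hx => hx.1 j), ta.det]

theorem int_eq (dc : DC) (nul : NUL) (ta : TAU) (gdc : GDC) (cls : CLS) (aut : AUT) (scl : SCL)
    (wgt : WGT) (ana : ANA) (A : Atlas 1 1 (Fin 1)) (H : Bool → Cm 1 → ℝ)
    (β' : Fin A.k → Cm 1 → Po 1) (h1 : ∀ b, ∀ x ∈ (A.C b).B, Gd x (β' b))
    (h2 : ∀ i b φ Φ y, Sm (Sl i) y → (∀ᶠ x in 𝓝 y, Mor (Sl i) (A.C b) φ Φ x) →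
      -P269C.dd (fun x => Real.log (H i x)) y = pb (jac φ y) (β' b (φ y)))
    (h3 : ∀ i t, 0 < H i t ∧ ContDiffAt ℝ ∞ (H i) t)
    (h4 : ∀ (s : ℂ) t t' (Φ : tot univ (sa true) → tot univ (sa false)), s ≠ 0 →
      sa false t' 0 = s ^ 4 * sa true t 0 → Is (Sl true) t (Sl false) t' Φ → Sc t s Φ →
      H true t = ‖s‖ ^ 2 * H false t') : A.int β' = 1 / 24 := by
  refine tendsto_nhds_unique (l := atTop) (tendsto_const_nhds.congr' ?_)
    (ana (H true) (H false) (h3 true) (h3 false) fun s t t' e1 e2 => ?_)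
  · filter_upwards [eventually_gt_atTop 0] with R hR
    exact (dcv dc nul ta gdc cls aut scl wgt A
      (fun i y => -P269C.dd (fun x => Real.log (H i x)) y) β' h1 h2 hR).symm
  · have hs : s ≠ 0 := by
      rintro rfl
      simp at e1
    obtain ⟨Φ, k1, k2⟩ := scl 1 1 univ univ (sa true) (sa false) univ_nonempty univ_nonempty
      (ok_sa true) (ok_sa false) t (mem_univ _) t' (mem_univ _) s hs e1.symm
      (e2.trans (mul_one _).symm)
    exact h4 s t t' Φ hs e1.symm k1 k2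

theorem v11_of (dc : DC) (nul : NUL) (ta : TAU) (chn : CHN) (gdc : GDC) (ps : PSI) (la : LAM)
    (cls : CLS) (aut : AUT) (scl : SCL) (wgt : WGT) (ana : ANA) : V11 := by
  intro A G h hG hh
  have st : ∀ i, (Sl i).IsStable := fun i => (ok_sa i).st
  constructor
  · refine int_eq dc nul ta gdc cls aut scl wgt ana A (fun i t => h 1 (Sl i) t 0 uC) _
      (fun b x hx => ps.gd hh (A.kur b).1 x hx 0) (fun i b φ Φ y _ k => ?_) (fun i t => ?_)
      fun s t t' Φ hs _ k1 k2 => psi_scale hh (ok_sa true) (ok_sa false) (mem_univ _) (mem_univ _)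
        hs k1 k2
    · have hz := (ok_sa i).co_oo (L := Fin 1) (hne := univ_nonempty) (mem_univ y)
      rw [← ps.nat hh (A.kur b).1 (st i) y (mem_univ y) k 0]
      exact (ps.eq hh (st i) y (mem_univ y) 0 uC hz.1 hz.2).symm
    · have hz := (ok_sa i).co_oo (L := Fin 1) (hne := univ_nonempty) (mem_univ t)
      exact hh.2 1 (Sl i) (st i) t (mem_univ t) 0 uC hz.1 hz.2
  · have fr : ∀ i y, Fr (Sl i) y fun _ : Fin 1 => om (Fin 1) univ (sa i) univ_nonempty :=
      fun i y => (ok_sa i).fr (mem_univ y)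
    have pos := fun i y => hG.2 (Fin 1) 1 (Sl i) (st i) y (mem_univ y) _ (fr i y)
    have h3 : ∀ i t, 0 < (G 1 (fg (Sl i)) t (fun _ => om (Fin 1) univ (sa i) univ_nonempty) 0 0).re ∧
        ContDiffAt ℝ ∞ (fun t =>
          (G 1 (fg (Sl i)) t (fun _ => om (Fin 1) univ (sa i) univ_nonempty) 0 0).re) t :=
      fun i t => ⟨(Complex.pos_iff.1 (pos i t).1.diag_pos).1,
        Complex.reCLM.contDiff.contDiffAt.comp t ((pos i t).2 0 0)⟩
    refine int_eq dc nul ta gdc cls aut scl wgt ana A (fun i t =>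
      (G 1 (fg (Sl i)) t (fun _ => om (Fin 1) univ (sa i) univ_nonempty) 0 0).re) _
      (fun b x hx => la.gd hG (A.kur b).1 x hx (A.fr b x hx) 1) (fun i b φ Φ y hy k => ?_) h3
      fun s t t' Φ hs e k1 k2 => lam_scale hG (ok_sa true) (ok_sa false) (mem_univ _) (mem_univ _)
        hs e k1 k2
    rw [← P269CI.lam_nat k1 ta chn la hG (A.kur b).1 (st i) (mem_univ y) hy k ⟨_, fr i y⟩
      (A.fr b _ k.self_of_nhds.1) 1, la.eq hG (st i) y (mem_univ y) _ (fr i y) 1,
      ← chn.line _ y ((h3 i y).2.of_le (WithTop.coe_le_coe.2 le_top)) (h3 i y).1]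
    congr 1
    funext t
    ext p q
    rw [Subsingleton.elim p 0, Subsingleton.elim q 0]
    exact Complex.ext rfl (Complex.pos_iff.1 (pos i t).1.diag_pos).2

end Vale.Agent.P269CW

end
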