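import Vale.Agent.P269CW.V11
import Vale.Agent.P269CE.Aut
import Vale.Agent.P269CI.Scl
import Vale.Agent.P269CA.Ana
import Vale.Agent.P269CQ.Main
import Vale.Agent.P269CF.Nodes
import Vale.Agent.P269CG.TauRow
import Vale.Agent.P269C.Chn
import Vale.Agent.P269CB.Main
import Vale.Agent.P269CN.Lam
import Vale.Agent.P269CV.K2

/-! Row V11 with the landed rows plugged in. -/

namespace Vale.Agent.P269CW

theorem v11_cw (cls : CLS) (wgt : WGT) : P269C.V11 :=
  v11_of P269CQ.dc P269CF.nul P269CG.tau_row P269C.chn P269CB.gdc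
    (P269CM.psi_of P269C.chn P269CK.k1 P269CV.k2)
    (P269CN.lam_row P269CG.tau_row P269C.chn P269CK.k1 P269CV.k2
      (P269CM.basn_of P269CK.k1 P269CV.k2))
    cls P269CE.aut P269CI.scl wgt P269CA.ana

end Vale.Agent.P269CW
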